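import Mathlib

/-!
# Parametric integrals of `C^n` functions (row 240, kernel calculus)
-/

namespace Crest.Agent.R240.Wk

open MeasureTheory Set Filter Topology

section Par

variable {Ω : Type*} [MeasurableSpace Ω] {μ : Measure Ω} {E F : Type*}
  [NormedAddCommGroup E] [NormedSpace ℝ E] [NormedAddCommGroup F] [NormedSpace ℝ F]

/-- Differentiation under the integral sign, all orders `≤ n`, local domination. -/
theorem hasFTaylor_integral [CompleteSpace F] {n : ℕ∞} (g : Ω → E → F)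
    (hg : ∀ᵐ ω ∂μ, ContDiff ℝ n (g ω))
    (hm : ∀ j : ℕ, (j : ℕ∞) ≤ n → ∀ x,
      AEStronglyMeasurable (fun ω => iteratedFDeriv ℝ j (g ω) x) μ)
    (hle : ∀ j : ℕ, (j : ℕ∞) ≤ n → ∀ x0 : E, ∃ s ∈ 𝓝 x0, ∃ bound : Ω → ℝ, Integrable bound μ ∧
      ∀ᵐ ω ∂μ, ∀ x ∈ s, ‖iteratedFDeriv ℝ j (g ω) x‖ ≤ bound ω) :
    HasFTaylorSeriesUpTo n (fun x => ∫ ω, g ω x ∂μ)
      (fun x j => ∫ ω, iteratedFDeriv ℝ j (g ω) x ∂μ) := by
  have hint : ∀ j : ℕ, (j : ℕ∞) ≤ n → ∀ x, Integrable (fun ω => iteratedFDeriv ℝ j (g ω) x) μ := by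
    intro j hj x
    obtain ⟨s, hs, b, hb, hb2⟩ := hle j hj x
    refine hb.mono' (hm j hj x) ?_
    filter_upwards [hb2] with ω hω
    exact hω x (mem_of_mem_nhds hs)
  refine ⟨?_, ?_, ?_⟩
  · intro x
    have h1 : ∫ ω, iteratedFDeriv ℝ 0 (g ω) x ∂μ =
        (continuousMultilinearCurryFin0 ℝ E F).symm (∫ ω, g ω x ∂μ) := by
      rw [← LinearIsometryEquiv.coe_coe, ← ContinuousLinearEquiv.integral_comp_comm]
      rfl
    show (∫ ω, iteratedFDeriv ℝ 0 (g ω) x ∂μ).curry0 = _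
    rw [h1]
    simp
  · intro m hm' x
    have hm1 : (m : ℕ∞) < n := by exact_mod_cast hm'
    have hm2 : ((m + 1 : ℕ) : ℕ∞) ≤ n := by
      have := Order.add_one_le_of_lt hm1
      exact_mod_cast this
    obtain ⟨s, hs, b, hb, hb2⟩ := hle (m + 1) hm2 x
    have key := hasFDerivAt_integral_of_dominated_of_fderiv_le (𝕜 := ℝ) (μ := μ) (x₀ := x)
      (F := fun y ω => iteratedFDeriv ℝ m (g ω) y)
      (F' := fun y ω => (iteratedFDeriv ℝ (m + 1) (g ω) y).curryLeft) (s := s) (bound := b) hs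
      (Eventually.of_forall (fun y => hm m hm1.le y)) (hint m hm1.le x)
      (by
        have := (continuousMultilinearCurryLeftEquiv ℝ (fun _ : Fin (m + 1) => E) F).continuous.comp_aestronglyMeasurable (hm (m + 1) hm2 x)
        exact this)
      (by
        filter_upwards [hb2] with ω hω y hy
        have := hω y hy
        rwa [ContinuousMultilinearMap.curryLeft_norm])
      hb
      (by
        filter_upwards [hg] with ω hω y _
        have h2 : HasFTaylorSeriesUpTo n (g ω) (ftaylorSeries ℝ (g ω)) :=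
          (contDiff_iff_ftaylorSeries).1 hω
        exact h2.fderiv m hm' y)
    have h3 : ∫ ω, (iteratedFDeriv ℝ (m + 1) (g ω) x).curryLeft ∂μ =
        (∫ ω, iteratedFDeriv ℝ (m + 1) (g ω) x ∂μ).curryLeft := by
      let L : (ContinuousMultilinearMap ℝ (fun _ : Fin (m + 1) => E) F) →L[ℝ]
          (E →L[ℝ] ContinuousMultilinearMap ℝ (fun _ : Fin m => E) F) :=
        ((continuousMultilinearCurryLeftEquiv ℝ (fun _ : Fin (m + 1) => E)
          F).toContinuousLinearEquiv : _ →L[ℝ] _)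
      exact ContinuousLinearMap.integral_comp_comm (𝕜 := ℝ)
        (E := ContinuousMultilinearMap ℝ (fun _ : Fin (m + 1) => E) F)
        (Fₗ := E →L[ℝ] ContinuousMultilinearMap ℝ (fun _ : Fin m => E) F) L
        (hint (m + 1) hm2 x)
    rw [h3] at key
    exact key
  · intro m hm'
    have hm1 : (m : ℕ∞) ≤ n := by exact_mod_cast hm'
    rw [continuous_iff_continuousAt]
    intro x
    obtain ⟨s, hs, b, hb, hb2⟩ := hle m hm1 x
    refine continuousAt_of_dominated (bound := b) (Eventually.of_forall (fun y => hm m hm1 y)) ?_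
      hb ?_
    · filter_upwards [hs] with y hy
      filter_upwards [hb2] with ω hω
      exact hω y hy
    · filter_upwards [hg] with ω hω
      exact (hω.continuous_iteratedFDeriv (by exact_mod_cast hm1)).continuousAt

theorem contDiff_integral [CompleteSpace F] {n : ℕ∞} (g : Ω → E → F)
    (hg : ∀ᵐ ω ∂μ, ContDiff ℝ n (g ω))
    (hm : ∀ j : ℕ, (j : ℕ∞) ≤ n → ∀ x,
      AEStronglyMeasurable (fun ω => iteratedFDeriv ℝ j (g ω) x) μ)
    (hle : ∀ j : ℕ, (j : ℕ∞) ≤ n → ∀ x0 : E, ∃ s ∈ 𝓝 x0, ∃ bound : Ω → ℝ, Integrable bound μ ∧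
      ∀ᵐ ω ∂μ, ∀ x ∈ s, ‖iteratedFDeriv ℝ j (g ω) x‖ ≤ bound ω) :
    ContDiff ℝ n (fun x => ∫ ω, g ω x ∂μ) ∧
      ∀ j : ℕ, (j : ℕ∞) ≤ n → ∀ x, iteratedFDeriv ℝ j (fun x => ∫ ω, g ω x ∂μ) x =
        ∫ ω, iteratedFDeriv ℝ j (g ω) x ∂μ := by
  have h := hasFTaylor_integral g hg hm hle
  refine ⟨h.contDiff, ?_⟩
  intro j hj x
  exact (h.eq_iteratedFDeriv (by exact_mod_cast hj) x).symm

end Par

end Crest.Agent.R240.Wk
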