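import Crest.Agent.R240.A.ToWK
import Crest.Agent.R240.A.Par

/-!
# Weakly singular operators on `E4` (row 240): main estimates
-/

namespace Crest.Agent.R240.Wk

open MeasureTheory Set Filter Topology Metric
open scoped ContDiff

noncomputable section

/-! ### the weight `‖z‖⁻³ 1_{‖z‖<r}` -/

/-- the weight -/
def wt (r : ℝ) (z : E4) : ℝ := (ball (0 : E4) r).indicator (fun z => ‖z‖⁻¹ ^ 3) z

theorem wt_nonneg (r : ℝ) (z : E4) : 0 ≤ wt r z := by
  unfold wt
  exact indicator_nonneg (fun z _ => by positivity) z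

theorem integrableOn_inv3 (r : ℝ) : IntegrableOn (fun z : E4 => ‖z‖⁻¹ ^ 3) (ball 0 r) := by
  rw [integrableOn_fun_norm_addHaar (μ := (volume : Measure E4)) (f := fun y : ℝ => y⁻¹ ^ 3)]
  have h4 : Module.finrank ℝ E4 = 4 := by simp
  rw [h4]
  have h1 : EqOn (fun y : ℝ => y ^ (4 - 1) • y⁻¹ ^ 3) (fun _ => (1 : ℝ)) (Ioo 0 r) := by
    intro y hy
    have hy0 : y ≠ 0 := hy.1.ne'
    simp only [smul_eq_mul]
    field_simp
  rw [integrableOn_congr_fun h1 measurableSet_Ioo]
  exact integrableOn_const (by simp) (by simp)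

theorem wt_integrable (r : ℝ) : Integrable (wt r) := by
  have h : wt r = (ball (0 : E4) r).indicator (fun z => ‖z‖⁻¹ ^ 3) := by
    funext z
    rfl
  rw [h, integrable_indicator_iff measurableSet_ball]
  exact integrableOn_inv3 r

theorem wt_integral_nonneg (r : ℝ) : 0 ≤ ∫ z, wt r z := integral_nonneg (wt_nonneg r)

theorem wt_integral (r : ℝ) : ∫ z, wt r z = ∫ z in ball (0 : E4) r, ‖z‖⁻¹ ^ 3 := by
  have h : wt r = (ball (0 : E4) r).indicator (fun z => ‖z‖⁻¹ ^ 3) := by
    funext z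
    rfl
  rw [h, integral_indicator measurableSet_ball]

theorem exists_wt_small {ε : ℝ} (hε : 0 < ε) : ∃ r : ℝ, 0 < r ∧ ∫ z, wt r z < ε := by
  have h1 : Tendsto (fun n : ℕ => ∫ z in ball (0 : E4) (1 / ((n : ℝ) + 1)), ‖z‖⁻¹ ^ 3) atTop
      (𝓝 (∫ z in ⋂ n : ℕ, ball (0 : E4) (1 / ((n : ℝ) + 1)), ‖z‖⁻¹ ^ 3)) := by
    refine tendsto_setIntegral_of_antitone (fun n => measurableSet_ball) ?_
      ⟨0, integrableOn_inv3 _⟩
    intro a b hab
    refine ball_subset_ball ?_
    have : (a : ℝ) ≤ b := by exact_mod_cast hab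
    exact one_div_le_one_div_of_le (by positivity) (by linarith)
  have h2 : (⋂ n : ℕ, ball (0 : E4) (1 / ((n : ℝ) + 1))) = {0} := by
    ext z
    simp only [mem_iInter, mem_ball, dist_zero_right, mem_singleton_iff]
    constructor
    · intro h
      by_contra hz
      have hz' : 0 < ‖z‖ := norm_pos_iff.2 hz
      obtain ⟨n, hn⟩ := exists_nat_one_div_lt hz'
      exact absurd (h n) (not_lt.2 hn.le)
    · rintro rfl n
      simp
      positivity
  rw [h2] at h1
  have h3 : ∫ z in ({0} : Set E4), ‖z‖⁻¹ ^ 3 = 0 := by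
    rw [Measure.restrict_singleton]
    simp
  rw [h3] at h1
  obtain ⟨n, hn⟩ := (h1.eventually (gt_mem_nhds hε)).exists
  refine ⟨1 / ((n : ℝ) + 1), by positivity, ?_⟩
  rw [wt_integral]
  exact hn

section main

variable {F G : Type*} [NormedAddCommGroup F] [NormedSpace ℝ F] [NormedAddCommGroup G]
  [NormedSpace ℝ G]

/-- pointwise bound of the derivatives of the integrand. -/
theorem ptw_bound {k : E4 → (F →L[ℝ] G)} {f : E4 → F} {m : ℕ} (hk : ContDiff ℝ m k)
    (hf : ContDiff ℝ m f) {x z : E4} {C A : ℝ}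
    (hC : ∀ j ≤ m, ‖iteratedFDeriv ℝ j k x‖ ≤ C)
    (hA : ∀ j ≤ m, ‖iteratedFDeriv ℝ j f (x - z)‖ ≤ A) {j : ℕ} (hj : j ≤ m) :
    ‖iteratedFDeriv ℝ j (fun x => k x (f (x - z))) x‖ ≤ 2 ^ m * C * A := by
  have hC0 : 0 ≤ C := (norm_nonneg _).trans (hC 0 (Nat.zero_le _))
  have hA0 : 0 ≤ A := (norm_nonneg _).trans (hA 0 (Nat.zero_le _))
  have hfz : ContDiff ℝ m (fun x => f (x - z)) := hf.comp (contDiff_id.sub contDiff_const)
  have h1 := norm_iteratedFDeriv_clm_apply hk hfz x (n := j) (by exact_mod_cast hj)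
  refine h1.trans ?_
  calc ∑ i ∈ Finset.range (j + 1), (j.choose i : ℝ) * ‖iteratedFDeriv ℝ i k x‖ *
        ‖iteratedFDeriv ℝ (j - i) (fun x => f (x - z)) x‖
      ≤ ∑ i ∈ Finset.range (j + 1), (j.choose i : ℝ) * C * A := by
        gcongr with i hi
        · exact hC i ((Nat.lt_succ_iff.1 (Finset.mem_range.1 hi)).trans hj)
        · rw [iteratedFDeriv_comp_sub]
          exact hA _ ((Nat.sub_le _ _).trans hj)
    _ = 2 ^ j * C * A := by
        rw [← Finset.sum_mul, ← Finset.sum_mul]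
        congr 2
        exact_mod_cast Nat.sum_range_choose j
    _ ≤ 2 ^ m * C * A := by
        gcongr
        norm_num

theorem ae_ne_zero : ∀ᵐ z : E4, z ≠ 0 := by
  simp [ae_iff]

/-- measurability of the derivatives of the integrand. -/
theorem meas_aux {k : E4 → E4 → (F →L[ℝ] G)}
    (hsm : ContDiffOn ℝ ∞ (fun p : E4 × E4 => k p.1 p.2) (univ ×ˢ {0}ᶜ)) {n : ℕ∞} {f : E4 → F}
    (hf : ContDiff ℝ n f) {j : ℕ} (hj : (j : ℕ∞) ≤ n) (x : E4) :
    AEStronglyMeasurable (fun z => iteratedFDeriv ℝ j (fun x => k x z (f (x - z))) x)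
      (volume : Measure E4) := by
  have h1 : ContDiffOn ℝ n (fun p : E4 × E4 => k p.1 p.2 (f (p.1 - p.2))) (univ ×ˢ {0}ᶜ) := by
    refine (hsm.of_le (by exact_mod_cast le_top)).clm_apply ?_
    exact (hf.comp (contDiff_fst.sub contDiff_snd)).contDiffOn
  have h2 := (contDiffOn_iteratedFDeriv_partial
    (h := fun p : E4 × E4 => k p.1 p.2 (f (p.1 - p.2))) isOpen_compl0 h1 (j := j) (m := 0)
    (by rw [zero_add]; exact_mod_cast hj)).continuousOn
  have h3 : ContinuousOn (fun z => iteratedFDeriv ℝ j (fun x => k x z (f (x - z))) x)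
      ({0}ᶜ : Set E4) := by
    exact h2.comp (f := fun z : E4 => (x, z)) (by fun_prop) (fun z hz => ⟨mem_univ _, hz⟩)
  have h4 := h3.aestronglyMeasurable (μ := (volume : Measure E4))
    (measurableSet_singleton (0 : E4)).compl
  rwa [restrict_compl_singleton] at h4

/-- differentiation under the integral sign for `op k f`. -/
theorem op_main [CompleteSpace G] {k : E4 → E4 → (F →L[ℝ] G)}
    (hsm : ContDiffOn ℝ ∞ (fun p : E4 × E4 => k p.1 p.2) (univ ×ˢ {0}ᶜ)) {R : ℝ}
    (hR : ∀ x z, R ≤ ‖z‖ → k x z = 0) {w : E4 → ℝ} (hw : Integrable w)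
    (hb : ∀ j : ℕ, ∃ C : ℝ, ∀ x z, z ≠ 0 → ‖iteratedFDeriv ℝ j (fun x => k x z) x‖ ≤ C * w z)
    {n : ℕ∞} {f : E4 → F} (hf : ContDiff ℝ n f) :
    ContDiff ℝ n (Ell.op k f) ∧ ∀ j : ℕ, (j : ℕ∞) ≤ n → ∀ x, iteratedFDeriv ℝ j (Ell.op k f) x =
      ∫ z, iteratedFDeriv ℝ j (fun x => k x z (f (x - z))) x := by
  have hleft : ∀ z : E4, z ≠ 0 → ContDiff ℝ ∞ (fun x => k x z) := fun z hz =>
    contDiff_left (h := fun p : E4 × E4 => k p.1 p.2) hsm hz
  refine contDiff_integral (μ := (volume : Measure E4)) (fun z x => k x z (f (x - z))) ?_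
    (fun j hj x => meas_aux hsm hf hj x) ?_
  · filter_upwards [ae_ne_zero] with z hz
    exact ((hleft z hz).of_le (by exact_mod_cast le_top)).clm_apply
      (hf.comp (contDiff_id.sub contDiff_const))
  · intro j hj x0
    choose Cj hCj using hb
    -- bound of the derivatives of `f` on a big ball
    have hfb : ∀ i : ℕ, i ≤ j → ∃ M : ℝ, ∀ y ∈ closedBall (0 : E4) (‖x0‖ + 1 + |R|),
        ‖iteratedFDeriv ℝ i f y‖ ≤ M := by
      intro i hi
      have hc : Continuous (iteratedFDeriv ℝ i f) :=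
        hf.continuous_iteratedFDeriv (by
          have : (i : ℕ∞) ≤ n := le_trans (by exact_mod_cast hi) hj
          exact_mod_cast this)
      obtain ⟨M, hM⟩ := (isCompact_closedBall (0 : E4) (‖x0‖ + 1 + |R|)).exists_bound_of_continuousOn
        hc.continuousOn
      exact ⟨M, hM⟩
    choose! M hM using hfb
    set C := ∑ i ∈ Finset.range (j + 1), |Cj i| with hC
    set A := ∑ i ∈ Finset.range (j + 1), |M i| with hA
    refine ⟨ball x0 1, ball_mem_nhds _ one_pos, fun z => 2 ^ j * (C * |w z|) * A, ?_, ?_⟩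
    · exact ((hw.abs.const_mul C).const_mul (2 ^ j)).mul_const A
    · filter_upwards [ae_ne_zero] with z hz x hx
      have hA0 : 0 ≤ A := Finset.sum_nonneg fun _ _ => abs_nonneg _
      have hC0 : 0 ≤ C := Finset.sum_nonneg fun _ _ => abs_nonneg _
      rcases le_or_gt R ‖z‖ with hzR | hzR
      · have h0 : (fun x => k x z (f (x - z))) = fun _ => (0 : G) := by
          funext y
          rw [hR y z hzR]
          rfl
        rw [h0, show (fun _ : E4 => (0 : G)) = 0 from rfl]
        simp only [iteratedFDeriv_zero, Pi.zero_apply, norm_zero]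
        positivity
      · refine ptw_bound ((hleft z hz).of_le (by exact_mod_cast le_top))
          (hf.of_le (by exact_mod_cast hj)) ?_ ?_ le_rfl
        · intro i hi
          refine (hCj i x z hz).trans ?_
          calc Cj i * w z ≤ |Cj i * w z| := le_abs_self _
            _ = |Cj i| * |w z| := abs_mul _ _
            _ ≤ C * |w z| := by
              gcongr
              exact Finset.single_le_sum (f := fun i => |Cj i|) (fun i _ => abs_nonneg _)
                (Finset.mem_range.2 (Nat.lt_succ_of_le hi))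
        · intro i hi
          refine (hM i hi (x - z) ?_).trans ?_
          · rw [mem_closedBall, dist_zero_right]
            have h5 : ‖x‖ ≤ ‖x0‖ + 1 := by
              have := norm_sub_norm_le x x0
              have hx' : ‖x - x0‖ < 1 := by simpa [dist_eq_norm] using hx
              linarith
            have h6 : ‖z‖ ≤ |R| := hzR.le.trans (le_abs_self _)
            calc ‖x - z‖ ≤ ‖x‖ + ‖z‖ := norm_sub_le _ _
              _ ≤ _ := by linarith
          · refine (le_abs_self _).trans ?_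
            exact Finset.single_le_sum (f := fun i => |M i|) (fun i _ => abs_nonneg _)
                (Finset.mem_range.2 (Nat.lt_succ_of_le hi))

/-- the integrand is integrable. -/
theorem integrable_aux {k : E4 → E4 → (F →L[ℝ] G)}
    (hsm : ContDiffOn ℝ ∞ (fun p : E4 × E4 => k p.1 p.2) (univ ×ˢ {0}ᶜ)) {w : E4 → ℝ}
    (hw : Integrable w) {C : ℝ} (hC : ∀ x z, z ≠ 0 → ‖k x z‖ ≤ C * w z)
    {f : E4 → F} (hf : Continuous f) {B : ℝ} (hB : ∀ x, ‖f x‖ ≤ B) (x : E4) :
    Integrable (fun z => k x z (f (x - z))) (volume : Measure E4) := by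
  have hm : AEStronglyMeasurable (fun z => k x z (f (x - z))) (volume : Measure E4) := by
    have h2 : ContinuousOn (fun p : E4 × E4 => k p.1 p.2 (f (p.1 - p.2))) (univ ×ˢ {0}ᶜ) := by
      refine hsm.continuousOn.clm_apply ?_
      exact (hf.comp (continuous_fst.sub continuous_snd)).continuousOn
    have h3 : ContinuousOn (fun z => k x z (f (x - z))) ({0}ᶜ : Set E4) := by
      exact h2.comp (f := fun z : E4 => (x, z)) (by fun_prop) (fun z hz => ⟨mem_univ _, hz⟩)
    have h4 := h3.aestronglyMeasurable (μ := (volume : Measure E4))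
      (measurableSet_singleton (0 : E4)).compl
    rwa [restrict_compl_singleton] at h4
  refine ((hw.const_mul C).mul_const B).mono' hm ?_
  filter_upwards [ae_ne_zero] with z hz
  have hB0 : 0 ≤ B := (norm_nonneg _).trans (hB 0)
  calc ‖k x z (f (x - z))‖ ≤ ‖k x z‖ * ‖f (x - z)‖ := (k x z).le_opNorm _
    _ ≤ (C * w z) * B := by
      have := hC x z hz
      have h0 := norm_nonneg (k x z)
      gcongr
      · exact h0.trans this
      · exact hB _

/-- `C^m` bound for `op k f`. -/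
theorem op_CkB [CompleteSpace G] {k : E4 → E4 → (F →L[ℝ] G)}
    (hsm : ContDiffOn ℝ ∞ (fun p : E4 × E4 => k p.1 p.2) (univ ×ˢ {0}ᶜ)) {R : ℝ}
    (hR : ∀ x z, R ≤ ‖z‖ → k x z = 0) {w : E4 → ℝ} (hw : Integrable w)
    (hb : ∀ j : ℕ, ∃ C : ℝ, ∀ x z, z ≠ 0 → ‖iteratedFDeriv ℝ j (fun x => k x z) x‖ ≤ C * w z)
    {m : ℕ} {f : E4 → F} (hf : ContDiff ℝ m f) {C A : ℝ}
    (hC : ∀ j ≤ m, ∀ x z, z ≠ 0 → ‖iteratedFDeriv ℝ j (fun x => k x z) x‖ ≤ C * w z)
    (hA : Ell.CkB m f A) : Ell.CkB m (Ell.op k f) (2 ^ m * C * (∫ z, w z) * A) := by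
  intro j hj x
  have hf' : ContDiff ℝ ((m : ℕ∞) : ℕ∞ω) f := by exact_mod_cast hf
  rw [(op_main hsm hR hw hb hf').2 j (by exact_mod_cast hj) x]
  have h1 : ∫ z, 2 ^ m * (C * w z) * A = 2 ^ m * C * (∫ z, w z) * A := by
    rw [integral_mul_const, integral_const_mul, integral_const_mul]
    ring
  rw [← h1]
  refine norm_integral_le_of_norm_le (((hw.const_mul C).const_mul (2 ^ m)).mul_const A) ?_
  filter_upwards [ae_ne_zero] with z hz
  refine ptw_bound ((contDiff_left (h := fun p : E4 × E4 => k p.1 p.2) hsm hz).of_le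
    (by exact_mod_cast le_top)) hf (fun i hi => hC i hi x z hz) (fun i hi => hA i hi _) hj

end main

end

end Crest.Agent.R240.Wk
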