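import Crest.Agent.R240.A.Op

/-!
# The theorem `Ell.OpThm` (row 240): weakly singular operators, near/far splitting
-/

namespace Crest.Agent.R240.Wk

open MeasureTheory Set Filter Topology Metric
open scoped ContDiff

noncomputable section

/-- cut-off: `1` on `closedBall 0 (r/2)`, `0` off `ball 0 r`. -/
def bump (r : ℝ) (hr : 0 < r) : ContDiffBump (0 : E4) :=
  ⟨r / 2, r, by linarith, by linarith⟩

section main

variable {F G : Type*} [NormedAddCommGroup F] [NormedSpace ℝ F] [NormedAddCommGroup G]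
  [NormedSpace ℝ G]

theorem wk_smooth {k : E4 → E4 → (F →L[ℝ] G)} (hk : Ell.WK k) :
    ContDiffOn ℝ ∞ (fun p : E4 × E4 => k p.1 p.2) (univ ×ˢ {0}ᶜ) := by
  have h1 : {p : E4 × E4 | p.2 ≠ 0} = univ ×ˢ {0}ᶜ := by
    ext p
    simp
  rw [← h1]
  exact hk.smooth

/-- near part -/
def near (r : ℝ) (hr : 0 < r) (k : E4 → E4 → (F →L[ℝ] G)) (x z : E4) : F →L[ℝ] G :=
  (bump r hr z : ℝ) • k x z

/-- far part -/
def far (r : ℝ) (hr : 0 < r) (k : E4 → E4 → (F →L[ℝ] G)) (x z : E4) : F →L[ℝ] G :=
  (1 - bump r hr z : ℝ) • k x z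

theorem near_add_far (r : ℝ) (hr : 0 < r) (k : E4 → E4 → (F →L[ℝ] G)) (x z : E4) :
    near r hr k x z + far r hr k x z = k x z := by
  unfold near far
  rw [← add_smul]
  simp

theorem near_smooth {r : ℝ} {hr : 0 < r} {k : E4 → E4 → (F →L[ℝ] G)} (hk : Ell.WK k) :
    ContDiffOn ℝ ∞ (fun p : E4 × E4 => near r hr k p.1 p.2) (univ ×ˢ {0}ᶜ) := by
  have h1 : ContDiff ℝ ∞ (fun p : E4 × E4 => (bump r hr p.2 : ℝ)) :=
    (bump r hr).contDiff.comp contDiff_snd
  exact h1.contDiffOn.smul (wk_smooth hk)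

theorem far_smooth {r : ℝ} {hr : 0 < r} {k : E4 → E4 → (F →L[ℝ] G)} (hk : Ell.WK k) :
    ContDiff ℝ ∞ (fun p : E4 × E4 => far r hr k p.1 p.2) := by
  rw [contDiff_iff_contDiffAt]
  rintro ⟨x, z⟩
  by_cases hz : z = 0
  · subst hz
    have h1 : (fun p : E4 × E4 => far r hr k p.1 p.2) =ᶠ[𝓝 (x, (0 : E4))] fun _ => 0 := by
      have h2 : {p : E4 × E4 | ‖p.2‖ < r / 2} ∈ 𝓝 (x, (0 : E4)) := by
        refine (isOpen_lt (by fun_prop) continuous_const).mem_nhds ?_
        simp [hr]
      filter_upwards [h2] with p hp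
      have h3 : (bump r hr p.2 : ℝ) = 1 := by
        refine (bump r hr).one_of_mem_closedBall ?_
        rw [mem_closedBall, dist_zero_right]
        exact le_of_lt hp
      simp [far, h3]
    exact (contDiffAt_const (c := (0 : F →L[ℝ] G))).congr_of_eventuallyEq h1
  · have hopen : IsOpen (univ ×ˢ ({0}ᶜ : Set E4) : Set (E4 × E4)) :=
      isOpen_univ.prod isOpen_compl0
    have h1 : ContDiff ℝ ∞ (fun p : E4 × E4 => (1 - bump r hr p.2 : ℝ)) :=
      contDiff_const.sub ((bump r hr).contDiff.comp contDiff_snd)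
    have h2 := h1.contDiffOn.smul (wk_smooth hk) (s := univ ×ˢ ({0}ᶜ : Set E4))
    exact h2.contDiffAt (hopen.mem_nhds ⟨mem_univ _, hz⟩)

/-- bounds of near part -/
theorem near_bound {r : ℝ} {hr : 0 < r} {k : E4 → E4 → (F →L[ℝ] G)} (hk : Ell.WK k) {j : ℕ}
    {C : ℝ} (hC : ∀ x z, z ≠ 0 → ‖iteratedFDeriv ℝ j (fun x => k x z) x‖ ≤ C * ‖z‖⁻¹ ^ 3)
    (x z : E4) (hz : z ≠ 0) :
    ‖iteratedFDeriv ℝ j (fun x => near r hr k x z) x‖ ≤ C * wt r z := by
  have hcd : ContDiff ℝ ∞ (fun x => k x z) :=
    contDiff_left (h := fun p : E4 × E4 => k p.1 p.2) (wk_smooth hk) hz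
  have h1 : iteratedFDeriv ℝ j (fun x => near r hr k x z) x =
      (bump r hr z : ℝ) • iteratedFDeriv ℝ j (fun x => k x z) x := by
    have h0 : (fun x => near r hr k x z) = (bump r hr z : ℝ) • (fun x => k x z) := rfl
    rw [h0]
    exact iteratedFDeriv_const_smul_apply (hcd.of_le (by exact_mod_cast le_top)).contDiffAt
  have hC0 : 0 ≤ C * ‖z‖⁻¹ ^ 3 := (norm_nonneg _).trans (hC x z hz)
  rw [h1, norm_smul, Real.norm_of_nonneg (bump r hr).nonneg]
  unfold wt
  by_cases hzr : z ∈ ball (0 : E4) r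
  · rw [indicator_of_mem hzr]
    calc (bump r hr z : ℝ) * ‖iteratedFDeriv ℝ j (fun x => k x z) x‖
        ≤ 1 * (C * ‖z‖⁻¹ ^ 3) := by
          gcongr
          · exact (bump r hr).le_one
          · exact hC x z hz
      _ = C * ‖z‖⁻¹ ^ 3 := one_mul _
  · rw [indicator_of_notMem hzr]
    have h2 : (bump r hr z : ℝ) = 0 := by
      refine (bump r hr).zero_of_le_dist ?_
      rw [mem_ball, not_lt] at hzr
      exact hzr
    rw [h2]
    simp

/-- Full bound in terms of the weight. -/
theorem wk_bound {k : E4 → E4 → (F →L[ℝ] G)} {R : ℝ}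
    (hR : ∀ x z, R ≤ ‖x‖ ∨ R ≤ ‖z‖ → k x z = 0) {j : ℕ}
    {C : ℝ} (hC : ∀ x z, z ≠ 0 → ‖iteratedFDeriv ℝ j (fun x => k x z) x‖ ≤ C * ‖z‖⁻¹ ^ 3)
    (x z : E4) (hz : z ≠ 0) :
    ‖iteratedFDeriv ℝ j (fun x => k x z) x‖ ≤ C * wt R z := by
  unfold wt
  by_cases hzr : z ∈ ball (0 : E4) R
  · rw [indicator_of_mem hzr]
    exact hC x z hz
  · rw [indicator_of_notMem hzr]
    have h2 : (fun x => k x z) = fun _ => (0 : F →L[ℝ] G) := by
      funext y
      refine hR y z (Or.inr ?_)
      rw [mem_ball, not_lt, dist_zero_right] at hzr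
      exact hzr
    rw [h2, show (fun _ : E4 => (0 : F →L[ℝ] G)) = 0 from rfl]
    simp

/-- the kernel `κ(x,y) = far k x (x - y)` -/
def kap (r : ℝ) (hr : 0 < r) (k : E4 → E4 → (F →L[ℝ] G)) (x y : E4) : F →L[ℝ] G :=
  far r hr k x (x - y)

theorem kap_smooth {r : ℝ} {hr : 0 < r} {k : E4 → E4 → (F →L[ℝ] G)} (hk : Ell.WK k) :
    ContDiff ℝ ∞ (fun p : E4 × E4 => kap r hr k p.1 p.2) := by
  have h : (fun p : E4 × E4 => kap r hr k p.1 p.2) =
      (fun q : E4 × E4 => far r hr k q.1 q.2) ∘ (fun p : E4 × E4 => (p.1, p.1 - p.2)) := rfl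
  rw [h]
  exact (far_smooth hk).comp (contDiff_fst.prodMk (contDiff_fst.sub contDiff_snd))

theorem kap_left {r : ℝ} {hr : 0 < r} {k : E4 → E4 → (F →L[ℝ] G)} (hk : Ell.WK k) (y : E4) :
    ContDiff ℝ ∞ (fun x => kap r hr k x y) :=
  contDiff_left (h := fun p : E4 × E4 => kap r hr k p.1 p.2) (U := univ)
    (kap_smooth hk).contDiffOn (mem_univ y)

theorem kap_der_continuous {r : ℝ} {hr : 0 < r} {k : E4 → E4 → (F →L[ℝ] G)} (hk : Ell.WK k)
    (j : ℕ) : Continuous (fun p : E4 × E4 =>
      iteratedFDeriv ℝ j (fun x => kap r hr k x p.2) p.1) := by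
  have := (contDiffOn_iteratedFDeriv_partial (h := fun p : E4 × E4 => kap r hr k p.1 p.2)
    (m := ∞) (j := j) isOpen_univ (kap_smooth hk).contDiffOn
    (by exact_mod_cast le_top)).continuousOn
  rwa [univ_prod_univ, continuousOn_univ] at this

theorem kap_eq_zero {r : ℝ} {hr : 0 < r} {k : E4 → E4 → (F →L[ℝ] G)} {R : ℝ}
    (hR : ∀ x z, R ≤ ‖x‖ ∨ R ≤ ‖z‖ → k x z = 0) (x y : E4) (h : R ≤ ‖x‖ ∨ 2 * R ≤ ‖y‖) :
    kap r hr k x y = 0 := by
  unfold kap far
  rw [hR x (x - y) ?_, smul_zero]
  rcases le_or_gt R ‖x‖ with hx | hx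
  · exact Or.inl hx
  · rcases h with h | h
    · exact Or.inl h
    · right
      have : ‖y‖ ≤ ‖x‖ + ‖x - y‖ := by
        calc ‖y‖ = ‖x - (x - y)‖ := by rw [sub_sub_cancel]
          _ ≤ ‖x‖ + ‖x - y‖ := norm_sub_le _ _
      linarith

theorem kap_hasCompactSupport {r : ℝ} {hr : 0 < r} {k : E4 → E4 → (F →L[ℝ] G)} (hk : Ell.WK k) :
    HasCompactSupport (fun p : E4 × E4 => kap r hr k p.1 p.2) := by
  obtain ⟨R, hR⟩ := hk.supp
  refine HasCompactSupport.intro ((isCompact_closedBall (0 : E4) R).prod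
    (isCompact_closedBall (0 : E4) (2 * R))) ?_
  rintro ⟨x, y⟩ hp
  refine kap_eq_zero hR x y ?_
  by_contra hcon
  push Not at hcon
  refine hp ⟨?_, ?_⟩
  · rw [mem_closedBall, dist_zero_right]
    exact hcon.1.le
  · rw [mem_closedBall, dist_zero_right]
    exact hcon.2.le

/-- change of variables in the far part -/
theorem op_far {r : ℝ} {hr : 0 < r} {k : E4 → E4 → (F →L[ℝ] G)} (f : E4 → F) (x : E4) :
    Ell.op (far r hr k) f x = ∫ y, kap r hr k x y (f y) := by
  unfold Ell.op
  have := integral_sub_left_eq_self (fun z => far r hr k x z (f (x - z))) (volume : Measure E4) x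
  rw [← this]
  congr 1
  funext y
  simp only [kap, sub_sub_cancel]

/-- the far part: `C^m` bounds by the sup norm. -/
theorem far_CkB [CompleteSpace G] {r : ℝ} (hr : 0 < r) {k : E4 → E4 → (F →L[ℝ] G)}
    (hk : Ell.WK k) (m : ℕ) :
    ∃ C : ℝ, ∀ (f : E4 → F) (B : ℝ), Continuous f → (∀ x, ‖f x‖ ≤ B) →
      Ell.CkB m (Ell.op (far r hr k) f) (C * B) := by
  obtain ⟨R, hR⟩ := hk.supp
  -- bound of the partial derivatives
  have hj : ∀ j : ℕ, ∃ M : ℝ, ∀ x y, ‖iteratedFDeriv ℝ j (fun x => kap r hr k x y) x‖ ≤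
      (closedBall (0 : E4) (2 * R)).indicator (fun _ => |M|) y := by
    intro j
    have h1 := kap_der_continuous (r := r) (hr := hr) hk j
    obtain ⟨M, hM⟩ := ((isCompact_closedBall (0 : E4) R).prod
      (isCompact_closedBall (0 : E4) (2 * R))).exists_bound_of_continuousOn
        (f := fun p : E4 × E4 => ‖iteratedFDeriv ℝ j (fun x => kap r hr k x p.2) p.1‖)
        (Continuous.norm (E := ContinuousMultilinearMap ℝ (fun _ : Fin j => E4) (F →L[ℝ] G))
          h1).continuousOn
    replace hM : ∀ q ∈ closedBall (0 : E4) R ×ˢ closedBall (0 : E4) (2 * R),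
        ‖iteratedFDeriv ℝ j (fun x => kap r hr k x q.2) q.1‖ ≤ M :=
      fun q hq => (le_abs_self _).trans (hM q hq)
    refine ⟨M, ?_⟩
    intro x y
    by_cases hy : y ∈ closedBall (0 : E4) (2 * R)
    · rw [indicator_of_mem hy]
      rcases le_or_gt ‖x‖ R with hx | hx
      · exact (hM (x, y) ⟨by simpa using hx, hy⟩).trans (le_abs_self _)
      · have h1 : (fun x => kap r hr k x y) =ᶠ[𝓝 x] (0 : E4 → (F →L[ℝ] G)) := by
          have : {u : E4 | R < ‖u‖} ∈ 𝓝 x :=
            (isOpen_lt continuous_const continuous_norm).mem_nhds hx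
          filter_upwards [this] with u hu
          exact kap_eq_zero hR u y (Or.inl (le_of_lt hu))
        rw [(h1.iteratedFDeriv ℝ j).eq_of_nhds]
        simp
    · rw [indicator_of_notMem hy]
      have h2 : (fun x => kap r hr k x y) = fun _ => (0 : F →L[ℝ] G) := by
        funext u
        refine kap_eq_zero hR u y (Or.inr ?_)
        rw [mem_closedBall, not_le, dist_zero_right] at hy
        exact hy.le
      rw [h2, show (fun _ : E4 => (0 : F →L[ℝ] G)) = 0 from rfl]
      simp
  choose M hM using hj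
  set C0 := ∑ i ∈ Finset.range (m + 1), |M i| with hC0
  have hC0' : 0 ≤ C0 := Finset.sum_nonneg fun _ _ => abs_nonneg _
  set V0 : ℝ := (volume : Measure E4).real (closedBall (0 : E4) (2 * R)) with hV0
  refine ⟨C0 * V0, ?_⟩
  intro f B hf hB j hjm x
  have hB0 : 0 ≤ B := (norm_nonneg _).trans (hB 0)
  have hop : Ell.op (far r hr k) f = fun x => ∫ y, kap r hr k x y (f y) :=
    funext fun x => op_far f x
  have hder : ∀ (i : ℕ) (y x : E4), ‖iteratedFDeriv ℝ i (fun x => kap r hr k x y (f y)) x‖ ≤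
      (closedBall (0 : E4) (2 * R)).indicator (fun _ => |M i| * B) y := by
    intro i y x
    have hcd : ContDiff ℝ ∞ (fun x => kap r hr k x y) := kap_left hk y
    have h1 := norm_iteratedFDeriv_clm_apply_const (f := fun x => kap r hr k x y) (c := f y)
      (x := x) (n := i) hcd.contDiffAt (by exact_mod_cast le_top)
    refine h1.trans ?_
    have h2 := hM i x y
    by_cases hy : y ∈ closedBall (0 : E4) (2 * R)
    · rw [indicator_of_mem hy] at h2 ⊢
      rw [mul_comm]
      gcongr
      exact hB y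
    · rw [indicator_of_notMem hy] at h2 ⊢
      have h3 : ‖iteratedFDeriv ℝ i (fun x => kap r hr k x y) x‖ = 0 :=
        le_antisymm h2 (norm_nonneg _)
      rw [h3, mul_zero]
  have hint : ∀ i : ℕ, Integrable ((closedBall (0 : E4) (2 * R)).indicator
      (fun _ => |M i| * B)) := by
    intro i
    rw [integrable_indicator_iff measurableSet_closedBall]
    exact integrableOn_const (isCompact_closedBall _ _).measure_lt_top.ne (by finiteness)
  have hmeas : ∀ j : ℕ, (j : ℕ∞) ≤ (⊤ : ℕ∞) → ∀ x, AEStronglyMeasurable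
      (fun y => iteratedFDeriv ℝ j (fun x => kap r hr k x y (f y)) x) (volume : Measure E4) := by
    intro j _ x
    have h1 : ∀ y, iteratedFDeriv ℝ j (fun x => kap r hr k x y (f y)) x =
        (ContinuousLinearMap.apply ℝ G (f y)).compContinuousMultilinearMap
          (iteratedFDeriv ℝ j (fun x => kap r hr k x y) x) := by
      intro y
      have hcd : ContDiff ℝ ∞ (fun x => kap r hr k x y) := kap_left hk y
      exact (ContinuousLinearMap.apply ℝ G (f y)).iteratedFDeriv_comp_left
        (f := fun x => kap r hr k x y) (i := j) hcd.contDiffAt (by exact_mod_cast le_top)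
    have h2 : (fun y => iteratedFDeriv ℝ j (fun x => kap r hr k x y (f y)) x) =
        fun y => ContinuousLinearMap.compContinuousMultilinearMapL ℝ (fun _ : Fin j => E4)
          (F →L[ℝ] G) G (ContinuousLinearMap.apply ℝ G (f y))
          (iteratedFDeriv ℝ j (fun x => kap r hr k x y) x) := by
      funext y
      rw [h1 y]
      rfl
    rw [h2]
    have h3 := kap_der_continuous (r := r) (hr := hr) hk j
    have h4 : Continuous (fun y : E4 => iteratedFDeriv ℝ j (fun x => kap r hr k x y) x) :=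
      h3.comp (f := fun y : E4 => (x, y)) (by fun_prop)
    refine Continuous.aestronglyMeasurable ?_
    refine Continuous.clm_apply ?_ h4
    exact (ContinuousLinearMap.compContinuousMultilinearMapL ℝ (fun _ : Fin j => E4)
      (F →L[ℝ] G) G).continuous.comp ((ContinuousLinearMap.apply ℝ G).continuous.comp hf)
  have key := contDiff_integral (μ := (volume : Measure E4)) (n := ⊤)
    (fun y x => kap r hr k x y (f y))
    (Eventually.of_forall fun y =>
      ((kap_left hk y).clm_apply contDiff_const))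
    hmeas
    (fun i _ x0 => ⟨univ, univ_mem, _, hint i, Eventually.of_forall fun y x _ => hder i y x⟩)
  rw [hop, key.2 j le_top x]
  have h5 : ∫ y, (closedBall (0 : E4) (2 * R)).indicator (fun _ => |M j| * B) y =
      |M j| * B * V0 := by
    rw [integral_indicator measurableSet_closedBall, setIntegral_const, smul_eq_mul, mul_comm]
  calc ‖∫ y, iteratedFDeriv ℝ j (fun x => kap r hr k x y (f y)) x‖
      ≤ ∫ y, (closedBall (0 : E4) (2 * R)).indicator (fun _ => |M j| * B) y :=
        norm_integral_le_of_norm_le (hint j) (Eventually.of_forall fun y => hder j y x)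
    _ = |M j| * B * V0 := h5
    _ ≤ C0 * V0 * B := by
      have h6 : |M j| ≤ C0 := Finset.single_le_sum (f := fun i => |M i|)
        (fun i _ => abs_nonneg _) (Finset.mem_range.2 (Nat.lt_succ_of_le hjm))
      have hV : 0 ≤ V0 := measureReal_nonneg
      calc |M j| * B * V0 ≤ C0 * B * V0 := by gcongr
        _ = C0 * V0 * B := by ring

/-- a bounded measurable partition of unity on a compact set, subordinate to small balls. -/
theorem exists_part {K : Set E4} (hK : IsCompact K) {δ : ℝ} (hδ : 0 < δ) :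
    ∃ (n : ℕ) (y : Fin n → E4) (ρ : Fin n → E4 → ℝ), (∀ j, Measurable (ρ j)) ∧
      (∀ j x, 0 ≤ ρ j x) ∧ (∀ j x, ρ j x ≤ 1) ∧ (∀ j x, ρ j x ≠ 0 → dist x (y j) < δ) ∧
      (∀ x ∈ K, ∑ j, ρ j x = 1) := by
  obtain ⟨t, -, htf, htc⟩ := finite_cover_balls_of_compact hK hδ
  set T : Finset E4 := htf.toFinset with hT
  set y : Fin T.card → E4 := fun j => (T.equivFin.symm j : E4) with hy
  set a : Fin T.card → E4 → ℝ := fun j x => max 0 (δ - dist x (y j)) with ha
  have ha0 : ∀ j x, 0 ≤ a j x := fun j x => le_max_left _ _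
  have hac : ∀ j, Continuous (a j) := fun j => by
    simp only [ha]
    fun_prop
  refine ⟨T.card, y, fun j x => a j x / ∑ i, a i x, ?_, ?_, ?_, ?_, ?_⟩
  · intro j
    refine (hac j).measurable.div ?_
    exact (continuous_finsetSum _ fun i _ => hac i).measurable
  · intro j x
    exact div_nonneg (ha0 j x) (Finset.sum_nonneg fun i _ => ha0 i x)
  · intro j x
    refine div_le_one_of_le₀ ?_ (Finset.sum_nonneg fun i _ => ha0 i x)
    exact Finset.single_le_sum (f := fun i => a i x) (fun i _ => ha0 i x) (Finset.mem_univ j)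
  · intro j x hx
    have h1 : a j x ≠ 0 := fun h => hx (by
      show a j x / ∑ i, a i x = 0
      rw [h, zero_div])
    by_contra hcon
    push Not at hcon
    exact h1 (max_eq_left (by linarith))
  · intro x hx
    rw [← Finset.sum_div]
    refine div_self ?_
    have h1 : ∃ c ∈ t, dist x c < δ := by
      have := htc hx
      simpa using this
    obtain ⟨c, hct, hcd⟩ := h1
    have hcT : c ∈ T := by simpa [hT] using hct
    set j := T.equivFin ⟨c, hcT⟩ with hj
    have hyj : y j = c := by
      simp [hy, hj]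
    have h2 : 0 < a j x := by
      simp only [ha, hyj]
      exact lt_max_of_lt_right (by linarith)
    have h3 : a j x ≤ ∑ i, a i x :=
      Finset.single_le_sum (f := fun i => a i x) (fun i _ => ha0 i x) (Finset.mem_univ j)
    exact (lt_of_lt_of_le h2 h3).ne'

theorem CkB_zero {f : E4 → F} {B : ℝ} : Ell.CkB 0 f B ↔ ∀ x, ‖f x‖ ≤ B := by
  constructor
  · intro h x
    have := h 0 le_rfl x
    rwa [norm_iteratedFDeriv_zero] at this
  · intro h j hj x
    obtain rfl : j = 0 := Nat.le_zero.1 hj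
    rw [norm_iteratedFDeriv_zero]
    exact h x

theorem CkB_add {m : ℕ} {f g : E4 → F} {A B : ℝ} (hf : ContDiff ℝ m f) (hg : ContDiff ℝ m g)
    (hA : Ell.CkB m f A) (hB : Ell.CkB m g B) : Ell.CkB m (fun x => f x + g x) (A + B) := by
  intro j hj x
  have h1 : iteratedFDeriv ℝ j (fun x => f x + g x) x =
      iteratedFDeriv ℝ j f x + iteratedFDeriv ℝ j g x :=
    iteratedFDeriv_add_apply (hf.of_le (by exact_mod_cast hj)).contDiffAt
      (hg.of_le (by exact_mod_cast hj)).contDiffAt
  rw [h1]
  exact (norm_add_le _ _).trans (add_le_add (hA j hj x) (hB j hj x))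

theorem CkB_mono {m : ℕ} {f : E4 → F} {A B : ℝ} (hA : Ell.CkB m f A) (h : A ≤ B) :
    Ell.CkB m f B := fun j hj x => (hA j hj x).trans h

/-- splitting of `op k f`. -/
theorem op_split {r : ℝ} (hr : 0 < r) {k : E4 → E4 → (F →L[ℝ] G)} (hk : Ell.WK k) {f : E4 → F}
    (hf : Continuous f) {B : ℝ} (hB : ∀ x, ‖f x‖ ≤ B) (x : E4) :
    Ell.op k f x = Ell.op (near r hr k) f x + Ell.op (far r hr k) f x := by
  obtain ⟨R, hR⟩ := hk.supp
  obtain ⟨C, hC⟩ := hk.bound 0
  have h1 : ∀ x z, z ≠ 0 → ‖k x z‖ ≤ C * wt R z := by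
    intro x z hz
    have := wk_bound hR hC x z hz
    rwa [norm_iteratedFDeriv_zero] at this
  have h2 : ∀ x z, z ≠ 0 → ‖near r hr k x z‖ ≤ C * wt R z := by
    intro x z hz
    refine le_trans ?_ (h1 x z hz)
    unfold near
    rw [norm_smul, Real.norm_of_nonneg (bump r hr).nonneg]
    exact mul_le_of_le_one_left (norm_nonneg _) (bump r hr).le_one
  have h3 : ∀ x z, z ≠ 0 → ‖far r hr k x z‖ ≤ C * wt R z := by
    intro x z hz
    refine le_trans ?_ (h1 x z hz)
    unfold far
    rw [norm_smul, Real.norm_of_nonneg (by linarith [(bump r hr).le_one (x := z)])]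
    exact mul_le_of_le_one_left (norm_nonneg _) (by linarith [(bump r hr).nonneg (x := z)])
  have i2 := integrable_aux (near_smooth (r := r) (hr := hr) hk) (wt_integrable R) h2 hf hB x
  have i3 := integrable_aux ((far_smooth (r := r) (hr := hr) hk).contDiffOn) (wt_integrable R)
    h3 hf hB x
  unfold Ell.op
  rw [← integral_add i2 i3]
  congr 1
  funext z
  rw [← add_apply, near_add_far]

/-- the near part satisfies `C^m` bounds with small constant. -/
theorem near_CkB [CompleteSpace G] {k : E4 → E4 → (F →L[ℝ] G)} (hk : Ell.WK k) (m : ℕ) {θ : ℝ}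
    (hθ : 0 < θ) : ∃ (r : ℝ) (hr : 0 < r), ∀ (f : E4 → F) (A : ℝ), ContDiff ℝ m f →
      Ell.CkB m f A → ContDiff ℝ m (Ell.op (near r hr k) f) ∧
        Ell.CkB m (Ell.op (near r hr k) f) (θ * A) := by
  obtain ⟨R, hR⟩ := hk.supp
  choose C hC using hk.bound
  set C0 := ∑ i ∈ Finset.range (m + 1), |C i| with hC0
  have hC0' : 0 ≤ C0 := Finset.sum_nonneg fun _ _ => abs_nonneg _
  obtain ⟨r, hr, hr2⟩ := exists_wt_small (ε := θ / (2 ^ m * C0 + 1)) (by positivity)
  refine ⟨r, hr, ?_⟩
  intro f A hf hA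
  have hA0 : 0 ≤ A := (norm_nonneg _).trans (hA 0 (Nat.zero_le _) 0)
  have hRn : ∀ x z, R ≤ ‖z‖ → near r hr k x z = 0 := by
    intro x z hz
    unfold near
    rw [hR x z (Or.inr hz), smul_zero]
  have hb : ∀ j : ℕ, ∃ C : ℝ, ∀ x z, z ≠ 0 →
      ‖iteratedFDeriv ℝ j (fun x => near r hr k x z) x‖ ≤ C * wt r z :=
    fun j => ⟨C j, near_bound hk (hC j)⟩
  have hf' : ContDiff ℝ ((m : ℕ∞) : ℕ∞ω) f := by exact_mod_cast hf
  have h0 := op_main (near_smooth (r := r) (hr := hr) hk) hRn (wt_integrable r) hb hf'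
  refine ⟨by exact_mod_cast h0.1, ?_⟩
  have h1 := op_CkB (near_smooth (r := r) (hr := hr) hk) hRn (wt_integrable r) hb hf
    (C := C0) (A := A) ?_ hA
  · refine CkB_mono h1 ?_
    have h2 : 2 ^ m * C0 * (∫ z, wt r z) ≤ θ := by
      have h3 : 2 ^ m * C0 * (∫ z, wt r z) ≤ (2 ^ m * C0 + 1) * (θ / (2 ^ m * C0 + 1)) := by
        have := wt_integral_nonneg r
        gcongr
        linarith
      rwa [mul_div_cancel₀] at h3
      positivity
    gcongr
  · intro j hj x z hz
    refine (near_bound hk (hC j) x z hz).trans ?_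
    have h4 : C j ≤ C0 := (le_abs_self _).trans (Finset.single_le_sum (f := fun i => |C i|)
      (fun i _ => abs_nonneg _) (Finset.mem_range.2 (Nat.lt_succ_of_le hj)))
    have := wt_nonneg r z
    gcongr

theorem far_contDiff [CompleteSpace G] {r : ℝ} {hr : 0 < r} {k : E4 → E4 → (F →L[ℝ] G)}
    (hk : Ell.WK k) {n : ℕ∞} {f : E4 → F} (hf : ContDiff ℝ n f) :
    ContDiff ℝ n (Ell.op (far r hr k) f) := by
  obtain ⟨R, hR⟩ := hk.supp
  choose C hC using hk.bound
  have hRn : ∀ x z, R ≤ ‖z‖ → far r hr k x z = 0 := by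
    intro x z hz
    unfold far
    rw [hR x z (Or.inr hz), smul_zero]
  refine (op_main (far_smooth (r := r) (hr := hr) hk).contDiffOn hRn (wt_integrable R) ?_ hf).1
  intro j
  refine ⟨C j, ?_⟩
  intro x z hz
  have hcd : ContDiff ℝ ∞ (fun x => k x z) :=
    contDiff_left (h := fun p : E4 × E4 => k p.1 p.2) (wk_smooth hk) hz
  have h1 : iteratedFDeriv ℝ j (fun x => far r hr k x z) x =
      (1 - bump r hr z : ℝ) • iteratedFDeriv ℝ j (fun x => k x z) x := by
    have h0 : (fun x => far r hr k x z) = (1 - bump r hr z : ℝ) • (fun x => k x z) := rfl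
    rw [h0]
    exact iteratedFDeriv_const_smul_apply (hcd.of_le (by exact_mod_cast le_top)).contDiffAt
  rw [h1, norm_smul, Real.norm_of_nonneg (by linarith [(bump r hr).le_one (x := z)])]
  refine le_trans ?_ (wk_bound hR (hC j) x z hz)
  exact mul_le_of_le_one_left (norm_nonneg _) (by linarith [(bump r hr).nonneg (x := z)])

/-- finite rank approximation of the far part in sup norm. -/
theorem far_finrank [CompleteSpace F] [CompleteSpace G] {r : ℝ} (hr : 0 < r)
    {k : E4 → E4 → (F →L[ℝ] G)} (hk : Ell.WK k) {θ R : ℝ} (hθ : 0 < θ) :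
    ∃ (n : ℕ) (w : Fin n → E4 → (F →L[ℝ] G)) (l : Fin n → (E4 → F) → F) (C : ℝ),
        (∀ j, ContDiff ℝ ∞ (w j)) ∧
        (∀ j x, ∃ z, z ≠ 0 ∧ ∃ c : ℝ, w j x = c • k x z) ∧
        (∀ j f g, ContDiff ℝ ∞ f → HasCompactSupport f → ContDiff ℝ ∞ g → HasCompactSupport g →
          l j (f + g) = l j f + l j g) ∧
        (∀ j (c : ℝ) f, l j (c • f) = c • l j f) ∧
        (∀ j f B, ContDiff ℝ ∞ f → HasCompactSupport f → Ell.CkB 0 f B → ‖l j f‖ ≤ C * B) ∧
        (∀ f B, ContDiff ℝ ∞ f → (∀ x, R ≤ ‖x‖ → f x = 0) → Ell.CkB 0 f B →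
          ∀ x, ‖Ell.op (far r hr k) f x - ∑ j, w j x (l j f)‖ ≤ θ * B) := by
  set V0 : ℝ := (volume : Measure E4).real (closedBall (0 : E4) R) with hV0
  have hV : 0 ≤ V0 := measureReal_nonneg
  -- uniform continuity of the kernel
  have huc : UniformContinuous (fun p : E4 × E4 => kap r hr k p.1 p.2) :=
    (kap_hasCompactSupport hk).uniformContinuous_of_continuous (kap_smooth hk).continuous
  obtain ⟨δ, hδ, hδ2⟩ := Metric.uniformContinuous_iff.1 huc (θ / (V0 + 1)) (by positivity)
  obtain ⟨n, y, ρ, hρm, hρ0, hρ1, hρs, hρK⟩ := exists_part (isCompact_closedBall (0 : E4) R) hδ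
  have hρn : ∀ j x, ‖ρ j x‖ ≤ 1 := fun j x => by
    rw [Real.norm_of_nonneg (hρ0 j x)]
    exact hρ1 j x
  have hint : ∀ j (f : E4 → F), Continuous f → HasCompactSupport f →
      Integrable (fun x => ρ j x • f x) (volume : Measure E4) := by
    intro j f hf hfc
    exact (hf.integrable_of_hasCompactSupport hfc).bdd_smul 1 (hρm j).aestronglyMeasurable
      (Eventually.of_forall (hρn j))
  set V1 : ℝ := (volume : Measure E4).real (ball (0 : E4) δ) with hV1
  refine ⟨n, fun j x => kap r hr k x (y j), fun j f => ∫ x, ρ j x • f x, V1, ?_, ?_, ?_, ?_,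
    ?_, ?_⟩
  · intro j
    exact kap_left hk (y j)
  · intro j x
    by_cases hx : x - y j = 0
    · obtain ⟨z, hz⟩ := exists_ne (0 : E4)
      refine ⟨z, hz, 0, ?_⟩
      have h1 : (bump r hr (x - y j) : ℝ) = 1 := by
        rw [hx]
        exact (bump r hr).one_of_mem_closedBall (mem_closedBall_self (bump r hr).rIn_pos.le)
      simp only [kap, far, h1, sub_self, zero_smul]
    · exact ⟨x - y j, hx, 1 - bump r hr (x - y j), rfl⟩
  · intro j f g hf hfc hg hgc
    have h1 : (fun x => ρ j x • (f + g) x) = fun x => ρ j x • f x + ρ j x • g x := by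
      funext x
      rw [Pi.add_apply, smul_add]
    show ∫ x, ρ j x • (f + g) x = _
    rw [h1]
    exact integral_add (hint j f hf.continuous hfc) (hint j g hg.continuous hgc)
  · intro j c f
    have h1 : (fun x => ρ j x • (c • f) x) = fun x => c • (ρ j x • f x) := by
      funext x
      rw [Pi.smul_apply, smul_comm]
    show ∫ x, ρ j x • (c • f) x = _
    rw [h1]
    exact integral_smul _ _
  · intro j f B hf hfc hB
    rw [CkB_zero] at hB
    have hB0 : 0 ≤ B := (norm_nonneg _).trans (hB 0)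
    have h1 : ∀ x, ‖ρ j x • f x‖ ≤ (ball (y j) δ).indicator (fun _ => B) x := by
      intro x
      by_cases hx : ρ j x = 0
      · rw [hx, zero_smul, norm_zero]
        exact indicator_nonneg (fun _ _ => hB0) x
      · rw [indicator_of_mem (mem_ball.2 (hρs j x hx)), norm_smul]
        calc ‖ρ j x‖ * ‖f x‖ ≤ 1 * B := by
              gcongr
              · exact hρn j x
              · exact hB x
          _ = B := one_mul B
    have h2 : Integrable ((ball (y j) δ).indicator (fun _ => B)) (volume : Measure E4) := by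
      rw [integrable_indicator_iff measurableSet_ball]
      exact integrableOn_const measure_ball_lt_top.ne (by finiteness)
    refine (norm_integral_le_of_norm_le h2 (Eventually.of_forall h1)).trans ?_
    rw [integral_indicator measurableSet_ball, setIntegral_const, smul_eq_mul]
    have h3 : (volume : Measure E4).real (ball (y j) δ) = V1 := by
      rw [hV1, measureReal_def, measureReal_def, Measure.addHaar_ball_center]
    rw [h3]
  · intro f B hf hfs hB x
    rw [CkB_zero] at hB
    have hB0 : 0 ≤ B := (norm_nonneg _).trans (hB 0)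
    have hfc : HasCompactSupport f := by
      refine HasCompactSupport.intro (isCompact_closedBall (0 : E4) R) ?_
      intro u hu
      refine hfs u ?_
      rw [mem_closedBall, not_le, dist_zero_right] at hu
      exact hu.le
    rw [op_far]
    have i1 : Integrable (fun u => kap r hr k x u (f u)) (volume : Measure E4) := by
      refine Continuous.integrable_of_hasCompactSupport ?_ ?_
      · refine Continuous.clm_apply ?_ hf.continuous
        exact (kap_smooth (r := r) (hr := hr) hk).continuous.comp (f := fun u : E4 => (x, u))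
          (by fun_prop)
      · refine HasCompactSupport.intro hfc ?_
        intro u hu
        rw [image_eq_zero_of_notMem_tsupport hu, map_zero]
    have i2 : ∀ j, Integrable (fun u => kap r hr k x (y j) (ρ j u • f u))
        (volume : Measure E4) := fun j =>
      (kap r hr k x (y j)).integrable_comp (hint j f hf.continuous hfc)
    have e1 : ∑ j, kap r hr k x (y j) (∫ u, ρ j u • f u) =
        ∫ u, ∑ j, kap r hr k x (y j) (ρ j u • f u) := by
      rw [integral_finsetSum _ fun j _ => i2 j]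
      refine Finset.sum_congr rfl fun j _ => ?_
      exact ((kap r hr k x (y j)).integral_comp_comm (hint j f hf.continuous hfc)).symm
    rw [e1, ← integral_sub i1 (integrable_finsetSum _ fun j _ => i2 j)]
    have h1 : ∀ u, ‖kap r hr k x u (f u) - ∑ j, kap r hr k x (y j) (ρ j u • f u)‖ ≤
        (closedBall (0 : E4) R).indicator (fun _ => θ / (V0 + 1) * B) u := by
      intro u
      by_cases hu : u ∈ closedBall (0 : E4) R
      · rw [indicator_of_mem hu]
        have h2 : kap r hr k x u (f u) - ∑ j, kap r hr k x (y j) (ρ j u • f u) =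
            ∑ j, ρ j u • ((kap r hr k x u - kap r hr k x (y j)) (f u)) := by
          simp only [map_smul, sub_apply, smul_sub, Finset.sum_sub_distrib]
          rw [← Finset.sum_smul, hρK u hu, one_smul]
        rw [h2]
        calc ‖∑ j, ρ j u • ((kap r hr k x u - kap r hr k x (y j)) (f u))‖
            ≤ ∑ j, ‖ρ j u • ((kap r hr k x u - kap r hr k x (y j)) (f u))‖ :=
              norm_sum_le _ _
          _ ≤ ∑ j, ρ j u * (θ / (V0 + 1) * B) := by
              refine Finset.sum_le_sum fun j _ => ?_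
              rw [norm_smul, Real.norm_of_nonneg (hρ0 j u)]
              by_cases h0 : ρ j u = 0
              · rw [h0, zero_mul, zero_mul]
              · have h3 : dist (x, u) (x, y j) < δ := by
                  rw [Prod.dist_eq, dist_self]
                  exact max_lt hδ (hρs j u h0)
                have h4 := hδ2 h3
                rw [dist_eq_norm] at h4
                have h5 : ‖(kap r hr k x u - kap r hr k x (y j)) (f u)‖ ≤
                    θ / (V0 + 1) * B :=
                  ((kap r hr k x u - kap r hr k x (y j)).le_opNorm (f u)).trans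
                    (mul_le_mul h4.le (hB u) (norm_nonneg _) (by positivity))
                exact mul_le_mul_of_nonneg_left h5 (hρ0 j u)
          _ = θ / (V0 + 1) * B := by
              rw [← Finset.sum_mul, hρK u hu, one_mul]
      · rw [indicator_of_notMem hu]
        have h2 : f u = 0 := by
          refine hfs u ?_
          rw [mem_closedBall, not_le, dist_zero_right] at hu
          exact hu.le
        simp [h2]
    have i3 : Integrable ((closedBall (0 : E4) R).indicator (fun _ => θ / (V0 + 1) * B))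
        (volume : Measure E4) := by
      rw [integrable_indicator_iff measurableSet_closedBall]
      exact integrableOn_const measure_closedBall_lt_top.ne (by finiteness)
    refine (norm_integral_le_of_norm_le i3 (Eventually.of_forall h1)).trans ?_
    rw [integral_indicator measurableSet_closedBall, setIntegral_const, smul_eq_mul, ← hV0]
    calc V0 * (θ / (V0 + 1) * B) = (V0 / (V0 + 1)) * (θ * B) := by ring
      _ ≤ 1 * (θ * B) := by
          gcongr
          exact div_le_one_of_le₀ (by linarith) (by linarith)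
      _ = θ * B := one_mul _

variable (F G) in
/-- THE OPERATOR THEOREM of the interface `EllIface`. -/
theorem opThm [CompleteSpace F] [CompleteSpace G] : Ell.OpThm F G := by
  intro k hk
  obtain ⟨R, hR⟩ := id hk.supp
  choose C hC using id hk.bound
  have hRn : ∀ x z, R ≤ ‖z‖ → k x z = 0 := fun x z hz => hR x z (Or.inr hz)
  have hb : ∀ j : ℕ, ∃ C : ℝ, ∀ x z, z ≠ 0 →
      ‖iteratedFDeriv ℝ j (fun x => k x z) x‖ ≤ C * wt R z :=
    fun j => ⟨C j, wk_bound hR (hC j)⟩
  refine ⟨?_, ?_, ?_, ?_⟩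
  · intro f hf _
    exact (op_main (wk_smooth hk) hRn (wt_integrable R) hb (n := ⊤) hf).1
  · intro m
    set C0 := ∑ i ∈ Finset.range (m + 1), |C i| with hC0
    refine ⟨2 ^ m * C0 * (∫ z, wt R z), ?_⟩
    intro f A hf _ hA
    refine op_CkB (wk_smooth hk) hRn (wt_integrable R) hb
      (hf.of_le (by exact_mod_cast le_top)) (C := C0) (A := A) ?_ hA
    intro j hj x z hz
    refine (wk_bound hR (hC j) x z hz).trans ?_
    have h4 : C j ≤ C0 := (le_abs_self _).trans (Finset.single_le_sum (f := fun i => |C i|)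
      (fun i _ => abs_nonneg _) (Finset.mem_range.2 (Nat.lt_succ_of_le hj)))
    have := wt_nonneg R z
    gcongr
  · intro m θ hθ
    obtain ⟨r, hr, hnear⟩ := near_CkB hk m hθ
    obtain ⟨D, hD⟩ := far_CkB hr hk m
    refine ⟨D, ?_⟩
    intro f A B hf hfc hA hB
    rw [CkB_zero] at hB
    have hfm : ContDiff ℝ m f := hf.of_le (by exact_mod_cast le_top)
    obtain ⟨h1, h2⟩ := hnear f A hfm hA
    have h3 := hD f B hf.continuous hB
    have h4 : ContDiff ℝ m (Ell.op (far r hr k) f) := by
      have : ContDiff ℝ ((m : ℕ∞) : ℕ∞ω) (Ell.op (far r hr k) f) :=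
        far_contDiff hk (by exact_mod_cast hfm)
      exact_mod_cast this
    have h5 : Ell.op k f = fun x => Ell.op (near r hr k) f x + Ell.op (far r hr k) f x :=
      funext fun x => op_split hr hk hf.continuous hB x
    rw [h5]
    exact CkB_add h1 h4 h2 h3
  · intro θ R' hθ
    obtain ⟨r, hr, hnear⟩ := near_CkB hk 0 (half_pos hθ)
    obtain ⟨n, w, l, D, hw, hwk, hadd, hsmul, hbd, happ⟩ :=
      far_finrank (R := R') hr hk (half_pos hθ)
    refine ⟨n, w, l, D, hw, hwk, hadd, hsmul, hbd, ?_⟩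
    intro f B hf hfs hB
    rw [CkB_zero]
    intro x
    have h1 := (hnear f B (hf.of_le (by simp)) hB).2
    rw [CkB_zero] at h1
    have h2 := happ f B hf hfs hB x
    rw [CkB_zero] at hB
    rw [op_split hr hk hf.continuous hB x]
    calc ‖Ell.op (near r hr k) f x + Ell.op (far r hr k) f x - ∑ j, w j x (l j f)‖
        = ‖Ell.op (near r hr k) f x + (Ell.op (far r hr k) f x - ∑ j, w j x (l j f))‖ := by
          rw [add_sub_assoc]
      _ ≤ θ / 2 * B + θ / 2 * B := (norm_add_le _ _).trans (add_le_add (h1 x) h2)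
      _ = θ * B := by ring

end main

end

end Crest.Agent.R240.Wk
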