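import Mathlib

/-!
# Symbol bounds for weakly singular kernels (row 240, kernel calculus)
-/

namespace Crest.Agent.R240.Wk

open MeasureTheory Set Filter Topology Metric
open scoped ContDiff

section Partial

variable {E Z V : Type*} [NormedAddCommGroup E] [NormedSpace ℝ E] [NormedAddCommGroup Z]
  [NormedSpace ℝ Z] [NormedAddCommGroup V] [NormedSpace ℝ V]

/-- Partial iterated derivatives in the first variable are restrictions of the full ones. -/
theorem iteratedFDeriv_partial {n : ℕ∞ω} {h : E × Z → V} {U : Set Z} (hU : IsOpen U)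
    (hh : ContDiffOn ℝ n h (univ ×ˢ U)) {j : ℕ} (hj : (j : ℕ∞ω) ≤ n) {x : E} {z : Z}
    (hz : z ∈ U) :
    iteratedFDeriv ℝ j (fun x => h (x, z)) x =
      (iteratedFDeriv ℝ j h (x, z)).compContinuousLinearMap
        (fun _ => ContinuousLinearMap.inl ℝ E Z) := by
  set s' : Set (E × Z) := {p | p + ((0 : E), z) ∈ (univ ×ˢ U : Set (E × Z))} with hs'
  have hopen : IsOpen (univ ×ˢ U : Set (E × Z)) := isOpen_univ.prod hU
  have hs'o : IsOpen s' := hopen.preimage (continuous_id.add continuous_const)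
  have h1 : ContDiffOn ℝ n (fun p : E × Z => h (p + ((0 : E), z))) s' := by
    refine hh.comp (contDiff_id.add contDiff_const).contDiffOn ?_
    intro p hp
    exact hp
  have hpre : (ContinuousLinearMap.inl ℝ E Z) ⁻¹' s' = univ := by
    ext y
    simp [hs', hz]
  have key := (ContinuousLinearMap.inl ℝ E Z).iteratedFDerivWithin_comp_right (i := j) h1
    hs'o.uniqueDiffOn (by rw [hpre]; exact uniqueDiffOn_univ) (x := x)
    (by simp [hs', hz]) hj
  rw [hpre, iteratedFDerivWithin_univ] at key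
  have e1 : ((fun p : E × Z => h (p + ((0 : E), z))) ∘ (ContinuousLinearMap.inl ℝ E Z)) =
      fun x => h (x, z) := by
    funext y
    simp
  rw [e1] at key
  rw [key, iteratedFDerivWithin_of_isOpen j hs'o (by simp [hs', hz]),
    iteratedFDeriv_comp_add_right]
  simp

theorem contDiffOn_iteratedFDeriv_partial {n : ℕ∞ω} {h : E × Z → V} {U : Set Z} (hU : IsOpen U)
    (hh : ContDiffOn ℝ n h (univ ×ˢ U)) {j : ℕ} {m : ℕ∞ω} (hj : m + j ≤ n) :
    ContDiffOn ℝ m (fun p : E × Z => iteratedFDeriv ℝ j (fun x => h (x, p.2)) p.1)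
      (univ ×ˢ U) := by
  have hopen : IsOpen (univ ×ˢ U : Set (E × Z)) := isOpen_univ.prod hU
  have h1 : ContDiffOn ℝ m (iteratedFDeriv ℝ j h) (univ ×ˢ U) := by
    intro p hp
    exact ((hh.contDiffAt (hopen.mem_nhds hp)).iteratedFDeriv_right hj).contDiffWithinAt
  have h2 : ContDiffOn ℝ m (fun p : E × Z => (iteratedFDeriv ℝ j h p).compContinuousLinearMap
        (fun _ => ContinuousLinearMap.inl ℝ E Z)) (univ ×ˢ U) := by
    exact (ContinuousMultilinearMap.compContinuousLinearMapL (𝕜 := ℝ) (F := V)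
      (fun _ : Fin j => ContinuousLinearMap.inl ℝ E Z)).contDiff.comp_contDiffOn h1
  refine h2.congr ?_
  rintro ⟨x, z⟩ hp
  exact iteratedFDeriv_partial hU hh (le_trans le_add_self hj) hp.2

theorem contDiff_left {n : ℕ∞ω} {h : E × Z → V} {U : Set Z}
    (hh : ContDiffOn ℝ n h (univ ×ˢ U)) {z : Z} (hz : z ∈ U) :
    ContDiff ℝ n (fun x => h (x, z)) := by
  rw [← contDiffOn_univ]
  refine hh.comp (contDiff_id.prodMk contDiff_const).contDiffOn ?_
  intro x _
  exact ⟨mem_univ _, hz⟩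

end Partial

section SB

variable {E V W X : Type*} [NormedAddCommGroup E] [NormedSpace ℝ E]
  [NormedAddCommGroup V] [NormedSpace ℝ V] [NormedAddCommGroup W] [NormedSpace ℝ W]
  [NormedAddCommGroup X] [NormedSpace ℝ X]

/-- `k` is smooth off `z = 0` and `‖D_x^j k(x,z)‖ ≤ C ‖z‖^{-m}` locally uniformly. -/
structure SB (m : ℕ) (k : E → E → V) : Prop where
  smooth : ContDiffOn ℝ ∞ (fun p : E × E => k p.1 p.2) (univ ×ˢ {0}ᶜ)
  bound : ∀ (R : ℝ) (j : ℕ), ∃ C : ℝ, ∀ x z, ‖x‖ ≤ R → z ≠ 0 → ‖z‖ ≤ R →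
    ‖iteratedFDeriv ℝ j (fun x => k x z) x‖ * ‖z‖ ^ m ≤ C

omit [NormedSpace ℝ E] in
theorem isOpen_compl0 : IsOpen ({0}ᶜ : Set E) := isOpen_compl_singleton

theorem SB.left {m : ℕ} {k : E → E → V} (hk : SB m k) {z : E} (hz : z ≠ 0) :
    ContDiff ℝ ∞ (fun x => k x z) :=
  contDiff_left (h := fun p : E × E => k p.1 p.2) hk.smooth hz

theorem SB.bound' {m : ℕ} {k : E → E → V} (hk : SB m k) (R : ℝ) (n : ℕ) :
    ∃ C : ℝ, 0 ≤ C ∧ ∀ j ≤ n, ∀ x z, ‖x‖ ≤ R → z ≠ 0 → ‖z‖ ≤ R →
      ‖iteratedFDeriv ℝ j (fun x => k x z) x‖ * ‖z‖ ^ m ≤ C := by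
  choose C hC using hk.bound R
  refine ⟨∑ i ∈ Finset.range (n + 1), |C i|, Finset.sum_nonneg fun _ _ => abs_nonneg _, ?_⟩
  intro j hj x z hx hz hz2
  refine (hC j x z hx hz hz2).trans ((le_abs_self _).trans ?_)
  exact Finset.single_le_sum (f := fun i => |C i|) (fun i _ => abs_nonneg _)
    (Finset.mem_range.2 (Nat.lt_succ_of_le hj))

theorem SB.clm {m : ℕ} {k : E → E → V} (hk : SB m k) (L : V →L[ℝ] W) :
    SB m (fun x z => L (k x z)) := by
  refine ⟨L.contDiff.comp_contDiffOn hk.smooth, ?_⟩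
  intro R j
  obtain ⟨C, hC⟩ := hk.bound R j
  refine ⟨‖L‖ * C, ?_⟩
  intro x z hx hz hz2
  have h1 : ‖iteratedFDeriv ℝ j (fun x => L (k x z)) x‖ ≤
      ‖L‖ * ‖iteratedFDeriv ℝ j (fun x => k x z) x‖ := by
    exact L.norm_iteratedFDeriv_comp_left (hk.left hz).contDiffAt
      (by exact_mod_cast le_top)
  calc ‖iteratedFDeriv ℝ j (fun x => L (k x z)) x‖ * ‖z‖ ^ m
      ≤ ‖L‖ * ‖iteratedFDeriv ℝ j (fun x => k x z) x‖ * ‖z‖ ^ m := by gcongr
    _ = ‖L‖ * (‖iteratedFDeriv ℝ j (fun x => k x z) x‖ * ‖z‖ ^ m) := by ring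
    _ ≤ ‖L‖ * C := by gcongr; exact hC x z hx hz hz2

theorem SB.congr {m : ℕ} {k k' : E → E → V} (hk : SB m k)
    (h : ∀ x z, z ≠ 0 → k' x z = k x z) : SB m k' := by
  refine ⟨hk.smooth.congr ?_, ?_⟩
  · rintro ⟨x, z⟩ hp
    exact h x z hp.2
  · intro R j
    obtain ⟨C, hC⟩ := hk.bound R j
    refine ⟨C, ?_⟩
    intro x z hx hz hz2
    have : (fun x => k' x z) = fun x => k x z := funext fun x => h x z hz
    rw [this]
    exact hC x z hx hz hz2

theorem SB.add {m : ℕ} {k l : E → E → V} (hk : SB m k) (hl : SB m l) :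
    SB m (fun x z => k x z + l x z) := by
  refine ⟨hk.smooth.add hl.smooth, ?_⟩
  intro R j
  obtain ⟨C, hC⟩ := hk.bound R j
  obtain ⟨D, hD⟩ := hl.bound R j
  refine ⟨C + D, ?_⟩
  intro x z hx hz hz2
  have h1 : iteratedFDeriv ℝ j (fun x => k x z + l x z) x =
      iteratedFDeriv ℝ j (fun x => k x z) x + iteratedFDeriv ℝ j (fun x => l x z) x :=
    iteratedFDeriv_add_apply ((hk.left hz).of_le (by exact_mod_cast le_top)).contDiffAt
      ((hl.left hz).of_le (by exact_mod_cast le_top)).contDiffAt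
  rw [h1]
  calc _ ≤ (‖iteratedFDeriv ℝ j (fun x => k x z) x‖ + ‖iteratedFDeriv ℝ j (fun x => l x z) x‖)
        * ‖z‖ ^ m := by gcongr; exact norm_add_le _ _
    _ = ‖iteratedFDeriv ℝ j (fun x => k x z) x‖ * ‖z‖ ^ m +
        ‖iteratedFDeriv ℝ j (fun x => l x z) x‖ * ‖z‖ ^ m := by ring
    _ ≤ C + D := add_le_add (hC x z hx hz hz2) (hD x z hx hz hz2)

theorem SB.zero {m : ℕ} : SB m (fun (_ _ : E) => (0 : V)) := by
  refine ⟨contDiffOn_const, ?_⟩
  intro R j
  refine ⟨0, ?_⟩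
  intro x z hx hz hz2
  have : iteratedFDeriv ℝ j (fun _ : E => (0 : V)) x = 0 := by
    rw [show (fun _ : E => (0 : V)) = 0 from rfl]
    simp
  rw [this]
  simp

theorem SB.neg {m : ℕ} {k : E → E → V} (hk : SB m k) : SB m (fun x z => -k x z) := by
  have := hk.clm (-ContinuousLinearMap.id ℝ V)
  exact this

theorem SB.sub {m : ℕ} {k l : E → E → V} (hk : SB m k) (hl : SB m l) :
    SB m (fun x z => k x z - l x z) := by
  simpa [sub_eq_add_neg] using hk.add hl.neg

theorem SB.const_smul {m : ℕ} {k : E → E → V} (hk : SB m k) (c : ℝ) :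
    SB m (fun x z => c • k x z) := by
  have := hk.clm (c • ContinuousLinearMap.id ℝ V)
  exact this

theorem SB.sum {ι : Type*} {m : ℕ} {s : Finset ι} {k : ι → E → E → V}
    (hk : ∀ i ∈ s, SB m (k i)) : SB m (fun x z => ∑ i ∈ s, k i x z) := by
  classical
  induction s using Finset.induction_on with
  | empty => simpa using (SB.zero (E := E) (V := V) (m := m))
  | insert a s ha ih =>
    have h1 := (hk a (Finset.mem_insert_self _ _)).add
      (ih fun i hi => hk i (Finset.mem_insert_of_mem hi))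
    refine h1.congr ?_
    intro x z _
    rw [Finset.sum_insert ha]

/-- Bilinear combination: degrees add. -/
theorem SB.bilin {m n : ℕ} {k : E → E → V} {l : E → E → W} (hk : SB m k) (hl : SB n l)
    (B : V →L[ℝ] W →L[ℝ] X) : SB (m + n) (fun x z => B (k x z) (l x z)) := by
  refine ⟨?_, ?_⟩
  · exact (B.isBoundedBilinearMap.contDiff (n := ∞)).comp_contDiffOn (hk.smooth.prodMk hl.smooth)
  intro R j
  obtain ⟨C, hC0, hC⟩ := hk.bound' R j
  obtain ⟨D, hD0, hD⟩ := hl.bound' R j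
  refine ⟨‖B‖ * ∑ i ∈ Finset.range (j + 1), (j.choose i : ℝ) * C * D, ?_⟩
  intro x z hx hz hz2
  have h1 := B.norm_iteratedFDeriv_le_of_bilinear (hk.left hz) (hl.left hz) x (n := j)
    (by exact_mod_cast le_top)
  calc ‖iteratedFDeriv ℝ j (fun x => B (k x z) (l x z)) x‖ * ‖z‖ ^ (m + n)
      ≤ (‖B‖ * ∑ i ∈ Finset.range (j + 1), (j.choose i : ℝ) *
          ‖iteratedFDeriv ℝ i (fun x => k x z) x‖ *
          ‖iteratedFDeriv ℝ (j - i) (fun x => l x z) x‖) * ‖z‖ ^ (m + n) := by gcongr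
    _ = ‖B‖ * ∑ i ∈ Finset.range (j + 1), (j.choose i : ℝ) *
          (‖iteratedFDeriv ℝ i (fun x => k x z) x‖ * ‖z‖ ^ m) *
          (‖iteratedFDeriv ℝ (j - i) (fun x => l x z) x‖ * ‖z‖ ^ n) := by
        rw [mul_assoc, Finset.sum_mul, pow_add]
        congr 1
        refine Finset.sum_congr rfl fun i _ => ?_
        ring
    _ ≤ ‖B‖ * ∑ i ∈ Finset.range (j + 1), (j.choose i : ℝ) * C * D := by
        gcongr with i hi
        · exact hC i (Nat.lt_succ_iff.1 (Finset.mem_range.1 hi)) x z hx hz hz2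
        · exact hD (j - i) (Nat.sub_le _ _) x z hx hz hz2

/-- The substitution `k x z ↦ k (x - z) z` (freezing at the input point). -/
theorem SB.shift {m : ℕ} {k : E → E → V} (hk : SB m k) : SB m (fun x z => k (x - z) z) := by
  refine ⟨?_, ?_⟩
  · have h1 : ContDiff ℝ ∞ (fun p : E × E => (p.1 - p.2, p.2)) :=
      (contDiff_fst.sub contDiff_snd).prodMk contDiff_snd
    refine hk.smooth.comp h1.contDiffOn ?_
    rintro ⟨x, z⟩ hp
    exact ⟨mem_univ _, hp.2⟩
  · intro R j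
    obtain ⟨C, hC⟩ := hk.bound (2 * R) j
    refine ⟨C, ?_⟩
    intro x z hx hz hz2
    have h1 : iteratedFDeriv ℝ j (fun x => k (x - z) z) x =
        iteratedFDeriv ℝ j (fun x => k x z) (x - z) :=
      iteratedFDeriv_comp_sub (f := fun x => k x z) j z x
    rw [h1]
    have hR : 0 ≤ R := (norm_nonneg _).trans hx
    refine hC (x - z) z ?_ hz (by linarith)
    calc ‖x - z‖ ≤ ‖x‖ + ‖z‖ := norm_sub_le _ _
      _ ≤ 2 * R := by linarith

theorem SB.mono {m n : ℕ} {k : E → E → V} (hk : SB m k) (hmn : m ≤ n) : SB n k := by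
  refine ⟨hk.smooth, ?_⟩
  intro R j
  obtain ⟨C, hC0, hC⟩ := hk.bound' R j
  refine ⟨C * |R| ^ (n - m), ?_⟩
  intro x z hx hz hz2
  obtain ⟨d, rfl⟩ := Nat.exists_eq_add_of_le hmn
  rw [pow_add, ← mul_assoc, Nat.add_sub_cancel_left]
  have h2 : ‖z‖ ≤ |R| := hz2.trans (le_abs_self _)
  have := hC j le_rfl x z hx hz hz2
  gcongr

/-- Derivative in `x`. -/
theorem SB.dx {m : ℕ} {k : E → E → V} (hk : SB m k) :
    SB m (fun x z => fderiv ℝ (fun x => k x z) x) := by
  have hopen : IsOpen (univ ×ˢ ({0}ᶜ : Set E) : Set (E × E)) := isOpen_univ.prod isOpen_compl0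
  refine ⟨?_, ?_⟩
  · have h1 : ContDiffOn ℝ ∞ (fderiv ℝ (fun p : E × E => k p.1 p.2)) (univ ×ˢ {0}ᶜ) :=
      hk.smooth.fderiv_of_isOpen hopen (by simp)
    have h2 : ContDiffOn ℝ ∞ (fun p : E × E => (fderiv ℝ (fun p : E × E => k p.1 p.2) p).comp
        (ContinuousLinearMap.inl ℝ E E)) (univ ×ˢ {0}ᶜ) :=
      ((ContinuousLinearMap.compL ℝ E (E × E) V).flip
        (ContinuousLinearMap.inl ℝ E E)).contDiff.comp_contDiffOn h1
    refine h2.congr ?_
    rintro ⟨x, z⟩ hp
    have h3 : HasFDerivAt (fun p : E × E => k p.1 p.2)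
        (fderiv ℝ (fun p : E × E => k p.1 p.2) (x, z)) (x, z) := by
      refine DifferentiableAt.hasFDerivAt ?_
      exact (hk.smooth.contDiffAt (hopen.mem_nhds hp)).differentiableAt (by simp)
    have h4 : HasFDerivAt (fun x : E => ((x, z) : E × E)) (ContinuousLinearMap.inl ℝ E E) x := by
      have := (hasFDerivAt_id (𝕜 := ℝ) x).prodMk (hasFDerivAt_const z x)
      exact this
    have h5 := h3.comp x h4
    exact h5.fderiv
  · intro R j
    obtain ⟨C, hC⟩ := hk.bound R (j + 1)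
    refine ⟨C, ?_⟩
    intro x z hx hz hz2
    have h1 : ‖iteratedFDeriv ℝ j (fun x => fderiv ℝ (fun x => k x z) x) x‖ =
        ‖iteratedFDeriv ℝ (j + 1) (fun x => k x z) x‖ := norm_iteratedFDeriv_fderiv
    rw [h1]
    exact hC x z hx hz hz2

end SB

section Compact

variable {E V W X : Type*} [NormedAddCommGroup E] [NormedSpace ℝ E] [FiniteDimensional ℝ E]
  [NormedAddCommGroup V] [NormedSpace ℝ V] [NormedAddCommGroup W] [NormedSpace ℝ W]
  [NormedAddCommGroup X] [NormedSpace ℝ X]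

/-- A jointly smooth function is a symbol of degree `0`. -/
theorem SB.of_smooth {b : E → E → V} (hb : ContDiff ℝ ∞ (fun p : E × E => b p.1 p.2)) :
    SB 0 b := by
  refine ⟨hb.contDiffOn, ?_⟩
  intro R j
  have h1 : ContDiffOn ℝ ∞ (fun p : E × E => iteratedFDeriv ℝ j (fun x => b x p.2) p.1)
      (univ ×ˢ univ) :=
    contDiffOn_iteratedFDeriv_partial (h := fun p : E × E => b p.1 p.2) isOpen_univ
      hb.contDiffOn (m := ∞) (by exact_mod_cast le_top)
  have h2 : Continuous (fun p : E × E => iteratedFDeriv ℝ j (fun x => b x p.2) p.1) := by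
    have := h1.continuousOn
    rwa [univ_prod_univ, continuousOn_univ] at this
  have : ProperSpace E := FiniteDimensional.proper ℝ E
  obtain ⟨C, hC⟩ := ((isCompact_closedBall (0 : E) R).prod
    (isCompact_closedBall (0 : E) R)).exists_bound_of_continuousOn h2.continuousOn
  refine ⟨C, ?_⟩
  intro x z hx hz hz2
  have := hC (x, z) ⟨by simpa using hx, by simpa using hz2⟩
  simpa using this

/-- Multiplication by a jointly smooth function vanishing at `z = 0` improves the degree. -/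
theorem SB.of_smooth_vanish {m : ℕ} {b : E → E → V} {k : E → E → W}
    (hb : ContDiff ℝ ∞ (fun p : E × E => b p.1 p.2)) (hb0 : ∀ x, b x 0 = 0)
    (hk : SB (m + 1) k) (B : V →L[ℝ] W →L[ℝ] X) : SB m (fun x z => B (b x z) (k x z)) := by
  have : ProperSpace E := FiniteDimensional.proper ℝ E
  have hsm := (SB.of_smooth hb).bilin hk B
  refine ⟨hsm.smooth, ?_⟩
  -- Lipschitz bound of the partial derivatives of `b` in `z`
  have hlip : ∀ (R : ℝ) (j : ℕ), ∃ C : ℝ, 0 ≤ C ∧ ∀ x z, ‖x‖ ≤ R → ‖z‖ ≤ R →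
      ‖iteratedFDeriv ℝ j (fun x => b x z) x‖ ≤ C * ‖z‖ := by
    intro R j
    set D : E × E → ContinuousMultilinearMap ℝ (fun _ : Fin j => E) V :=
      fun p => iteratedFDeriv ℝ j (fun x => b x p.2) p.1 with hD
    have h1 : ContDiff ℝ ∞ D := by
      have := contDiffOn_iteratedFDeriv_partial (h := fun p : E × E => b p.1 p.2) (m := ∞)
        (j := j) isOpen_univ hb.contDiffOn (by exact_mod_cast le_top)
      rwa [univ_prod_univ, contDiffOn_univ] at this
    have h2 : Continuous (fderiv ℝ D) := h1.continuous_fderiv (by simp)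
    obtain ⟨C, hC⟩ := ((isCompact_closedBall (0 : E) R).prod
      (isCompact_closedBall (0 : E) R)).exists_bound_of_continuousOn
        (f := fun p => ‖fderiv ℝ D p‖)
        (Continuous.norm (E := E × E →L[ℝ] ContinuousMultilinearMap ℝ (fun _ : Fin j => E) V)
          h2).continuousOn
    replace hC : ∀ q ∈ closedBall (0 : E) R ×ˢ closedBall (0 : E) R, ‖fderiv ℝ D q‖ ≤ C :=
      fun q hq => (le_abs_self _).trans (hC q hq)
    refine ⟨|C|, abs_nonneg _, ?_⟩
    intro x z hx hz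
    have hR : 0 ≤ R := (norm_nonneg _).trans hx
    have h3 := Convex.norm_image_sub_le_of_norm_fderiv_le (𝕜 := ℝ) (f := D) (C := |C|)
      (s := closedBall (0 : E) R ×ˢ closedBall (0 : E) R) (x := (x, 0)) (y := (x, z))
      (fun p _ => (h1.differentiable (by simp)) p)
      (fun p hp => (hC p hp).trans (le_abs_self _))
      ((convex_closedBall _ _).prod (convex_closedBall _ _))
      ⟨by simpa using hx, by simpa using hR⟩ ⟨by simpa using hx, by simpa using hz⟩
    have h4 : D (x, 0) = 0 := by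
      have : (fun x => b x 0) = fun _ : E => (0 : V) := funext hb0
      simp only [hD]
      rw [this]
      rw [show (fun _ : E => (0 : V)) = 0 from rfl]
      simp
    rw [h4, sub_zero] at h3
    simpa using h3
  intro R j
  choose L hL0 hL using hlip R
  obtain ⟨D, hD0, hD⟩ := hk.bound' R j
  refine ⟨‖B‖ * ∑ i ∈ Finset.range (j + 1), (j.choose i : ℝ) * L i * D, ?_⟩
  intro x z hx hz hz2
  have h1 := B.norm_iteratedFDeriv_le_of_bilinear (f := fun x => b x z) (g := fun x => k x z)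
    ((SB.of_smooth hb).left hz) (hk.left hz) x (n := j)
    (by exact_mod_cast le_top)
  calc ‖iteratedFDeriv ℝ j (fun x => B (b x z) (k x z)) x‖ * ‖z‖ ^ m
      ≤ (‖B‖ * ∑ i ∈ Finset.range (j + 1), (j.choose i : ℝ) *
          ‖iteratedFDeriv ℝ i (fun x => b x z) x‖ *
          ‖iteratedFDeriv ℝ (j - i) (fun x => k x z) x‖) * ‖z‖ ^ m := by gcongr
    _ ≤ (‖B‖ * ∑ i ∈ Finset.range (j + 1), (j.choose i : ℝ) * (L i * ‖z‖) *
          ‖iteratedFDeriv ℝ (j - i) (fun x => k x z) x‖) * ‖z‖ ^ m := by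
        gcongr with i hi
        exact hL i x z hx hz2
    _ = ‖B‖ * ∑ i ∈ Finset.range (j + 1), (j.choose i : ℝ) * L i *
          (‖iteratedFDeriv ℝ (j - i) (fun x => k x z) x‖ * ‖z‖ ^ (m + 1)) := by
        rw [mul_assoc, Finset.sum_mul]
        congr 1
        refine Finset.sum_congr rfl fun i _ => ?_
        ring
    _ ≤ ‖B‖ * ∑ i ∈ Finset.range (j + 1), (j.choose i : ℝ) * L i * D := by
        gcongr with i hi
        · exact mul_nonneg (Nat.cast_nonneg _) (hL0 i)
        · exact hD (j - i) (Nat.sub_le _ _) x z hx hz hz2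

/-- Kernels smooth off `z = 0` and homogeneous of degree `-m` in `z`. -/
theorem SB.of_homog {m : ℕ} {k : E → E → V}
    (hk : ContDiffOn ℝ ∞ (fun p : E × E => k p.1 p.2) (univ ×ˢ {0}ᶜ))
    (hh : ∀ x z, z ≠ 0 → ∀ t : ℝ, 0 < t → k x (t • z) = (t ^ m)⁻¹ • k x z) : SB m k := by
  have : ProperSpace E := FiniteDimensional.proper ℝ E
  refine ⟨hk, ?_⟩
  intro R j
  have h1 : ContDiffOn ℝ ∞ (fun p : E × E => iteratedFDeriv ℝ j (fun x => k x p.2) p.1)
      (univ ×ˢ {0}ᶜ) :=
    contDiffOn_iteratedFDeriv_partial (h := fun p : E × E => k p.1 p.2) isOpen_compl0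
      hk (by exact_mod_cast le_top)
  have h2 : ContinuousOn (fun p : E × E => iteratedFDeriv ℝ j (fun x => k x p.2) p.1)
      (closedBall 0 R ×ˢ sphere 0 1) := by
    refine h1.continuousOn.mono ?_
    rintro ⟨x, z⟩ hp
    refine ⟨mem_univ _, ?_⟩
    intro h0
    have : ‖z‖ = 1 := by simpa using hp.2
    simp only [mem_singleton_iff] at h0
    simp [h0] at this
  obtain ⟨C, hC⟩ := ((isCompact_closedBall (0 : E) R).prod
    (isCompact_sphere (0 : E) 1)).exists_bound_of_continuousOn h2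
  refine ⟨C, ?_⟩
  intro x z hx hz hz2
  have hzn : 0 < ‖z‖ := norm_pos_iff.2 hz
  set u : E := ‖z‖⁻¹ • z with hu
  have hu1 : ‖u‖ = 1 := by
    rw [hu, norm_smul, norm_inv, norm_norm, inv_mul_cancel₀ hzn.ne']
  have hu0 : u ≠ 0 := by
    intro h0
    rw [h0] at hu1
    simp at hu1
  have hzu : z = ‖z‖ • u := by
    rw [hu, smul_smul, mul_inv_cancel₀ hzn.ne', one_smul]
  have h3 : (fun x => k x z) = fun x => (‖z‖ ^ m)⁻¹ • k x u := by
    funext y
    conv_lhs => rw [hzu]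
    exact hh y u hu0 ‖z‖ hzn
  have h4 : iteratedFDeriv ℝ j (fun x => k x z) x =
      (‖z‖ ^ m)⁻¹ • iteratedFDeriv ℝ j (fun x => k x u) x := by
    rw [h3]
    have hcd : ContDiff ℝ ∞ (fun x => k x u) :=
      contDiff_left (h := fun p : E × E => k p.1 p.2) hk hu0
    exact iteratedFDeriv_const_smul_apply
      (hcd.of_le (by exact_mod_cast le_top)).contDiffAt
  rw [h4, norm_smul, norm_inv, norm_pow, norm_norm]
  have h5 := hC (x, u) ⟨by simpa using hx, by simpa using hu1⟩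
  have h6 : (‖z‖ ^ m)⁻¹ * ‖iteratedFDeriv ℝ j (fun x => k x u) x‖ * ‖z‖ ^ m =
      ‖iteratedFDeriv ℝ j (fun x => k x u) x‖ := by
    field_simp
  rw [h6]
  exact h5

end Compact

end Crest.Agent.R240.Wk
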