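import Crest.Agent.R240.A.SB
import Crest.Agent.R240.EllIface

/-!
# From symbol bounds to the class `Ell.WK` (row 240)
-/

namespace Crest.Agent.R240.Wk

open MeasureTheory Set Filter Topology Metric
open scoped ContDiff

variable {F G : Type*} [NormedAddCommGroup F] [NormedSpace ℝ F] [NormedAddCommGroup G]
  [NormedSpace ℝ G]

/-- A symbol of degree `3` which is compactly supported is a `WK` kernel. -/
theorem SB.toWK {k : E4 → E4 → (F →L[ℝ] G)} (hk : SB 3 k)
    (hs : ∃ R : ℝ, ∀ x z, R ≤ ‖x‖ ∨ R ≤ ‖z‖ → k x z = 0) : Ell.WK k := by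
  obtain ⟨R, hR⟩ := hs
  refine ⟨?_, ?_, ⟨R, hR⟩⟩
  · have h1 : {p : E4 × E4 | p.2 ≠ 0} = univ ×ˢ {0}ᶜ := by
      ext p
      simp
    rw [h1]
    exact hk.smooth
  · intro n
    obtain ⟨C, hC0, hC⟩ := hk.bound' R n
    refine ⟨C, ?_⟩
    intro x z hz
    have hzn : 0 < ‖z‖ := norm_pos_iff.2 hz
    have hpos : 0 ≤ C * ‖z‖⁻¹ ^ 3 := by positivity
    rcases le_or_gt ‖x‖ R with hx | hx
    · rcases le_or_gt ‖z‖ R with hz2 | hz2
      · have := hC n le_rfl x z hx hz hz2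
        rw [inv_pow, ← div_eq_mul_inv, le_div_iff₀ (by positivity)]
        exact this
      · have h1 : (fun x => k x z) = fun _ => (0 : F →L[ℝ] G) := by
          funext y
          exact hR y z (Or.inr hz2.le)
        rw [h1, show (fun _ : E4 => (0 : F →L[ℝ] G)) = 0 from rfl]
        simpa using hpos
    · have h1 : (fun x => k x z) =ᶠ[𝓝 x] (0 : E4 → (F →L[ℝ] G)) := by
        have : {y : E4 | R < ‖y‖} ∈ 𝓝 x := (isOpen_lt continuous_const continuous_norm).mem_nhds hx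
        filter_upwards [this] with y hy
        exact hR y z (Or.inl (le_of_lt hy))
      rw [(h1.iteratedFDeriv ℝ n).eq_of_nhds]
      simpa using hpos

/-- A symbol of degree `3` times a smooth compactly supported function. -/
theorem SB.toWK_smul {k : E4 → E4 → (F →L[ℝ] G)} (hk : SB 3 k) {b : E4 → E4 → ℝ}
    (hb : ContDiff ℝ ∞ (fun p : E4 × E4 => b p.1 p.2))
    (hs : ∃ R : ℝ, ∀ x z, R ≤ ‖x‖ ∨ R ≤ ‖z‖ → b x z = 0) :
    Ell.WK (fun x z => b x z • k x z) := by
  have h1 : SB (0 + 3) (fun x z => (ContinuousLinearMap.lsmul ℝ ℝ) (b x z) (k x z)) :=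
    (SB.of_smooth hb).bilin hk (ContinuousLinearMap.lsmul ℝ ℝ)
  have h2 : SB 3 (fun x z => b x z • k x z) := by
    rw [zero_add] at h1
    exact h1
  refine h2.toWK ?_
  obtain ⟨R, hR⟩ := hs
  refine ⟨R, fun x z h => ?_⟩
  rw [hR x z h, zero_smul]

end Crest.Agent.R240.Wk
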